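import Mathlib

/-!
Runs of consecutive integers covered by primes: a uniform window increment and a first moment
class with a linear bound.
-/

namespace Vale.Agent.Lib.P013

open Finset

/-- `RunOn S L`: there are `L` consecutive integers, each divisible by a member of `S`. -/
def RunOn (S : Finset ℕ) (L : ℕ) : Prop :=
  ∃ a : ℤ, ∀ i : ℕ, i < L → ∃ p ∈ S, (p : ℤ) ∣ a + i

/-- `HasRun k L`: there are at most `k` primes and `L` consecutive integers, each divisible by
one of these primes. So `h k - 1` of the problem is the greatest `L` with `HasRun k L`. -/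
def HasRun (k L : ℕ) : Prop :=
  ∃ S : Finset ℕ, (∀ p ∈ S, p.Prime) ∧ S.card ≤ k ∧ RunOn S L

lemma crt_step (N q : ℕ) (hcop : Nat.Coprime q N) (a : ℤ) (i : ℕ) :
    ∃ a' : ℤ, (N : ℤ) ∣ a' - a ∧ (q : ℤ) ∣ a' + i := by
  have hcop' : IsCoprime (N : ℤ) (q : ℤ) := Nat.isCoprime_iff_coprime.mpr hcop.symm
  obtain ⟨u, v, huv⟩ := hcop'
  refine ⟨a + u * N * (-(i : ℤ) - a), ⟨u * (-(i : ℤ) - a), by ring⟩, ⟨(a + i) * v, ?_⟩⟩
  have h2 : (u * N : ℤ) = 1 - v * q := by linarith
  rw [h2]; ring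

lemma cover_prescribed (N : ℕ) (a : ℤ) (U : Finset ℕ) :
    ∀ R : Finset ℕ, (∀ q ∈ R, q.Prime) → (∀ q ∈ R, ¬ q ∣ N) → U.card ≤ R.card →
      ∃ a' : ℤ, (N : ℤ) ∣ a' - a ∧ ∀ i ∈ U, ∃ q ∈ R, (q : ℤ) ∣ a' + i := by
  induction U using Finset.induction_on with
  | empty => exact fun R _ _ _ => ⟨a, by simp, by simp⟩
  | insert i0 U hi0 ih =>
    intro R hR hRN hcard
    rw [Finset.card_insert_of_notMem hi0] at hcard
    obtain ⟨q, hq⟩ : R.Nonempty := Finset.card_pos.1 (by omega)
    have hcard' : U.card ≤ (R.erase q).card := by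
      rw [Finset.card_erase_of_mem hq]; omega
    obtain ⟨a1, ha1, hcov⟩ := ih (R.erase q) (fun r hr => hR r (Finset.mem_of_mem_erase hr))
      (fun r hr => hRN r (Finset.mem_of_mem_erase hr)) hcard'
    have hcop : Nat.Coprime q (N * ∏ r ∈ R.erase q, r) := by
      rw [Nat.Prime.coprime_iff_not_dvd (hR q hq)]
      intro hdvd
      rcases (Nat.Prime.dvd_mul (hR q hq)).1 hdvd with h | h
      · exact hRN q hq h
      · obtain ⟨r, hr, hqr⟩ := (Prime.dvd_finsetProd_iff (hR q hq).prime _).1 h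
        have hqe : q = r := (Nat.prime_dvd_prime_iff_eq (hR q hq)
          (hR r (Finset.mem_of_mem_erase hr))).1 hqr
        exact (Finset.ne_of_mem_erase hr) hqe.symm
    obtain ⟨a2, ha2, hq2⟩ := crt_step _ q hcop a1 i0
    refine ⟨a2, ?_, ?_⟩
    · have h1 : (N : ℤ) ∣ a2 - a1 := by
        refine dvd_trans ?_ ha2
        exact_mod_cast Dvd.intro _ rfl
      have h3 : a2 - a = (a2 - a1) + (a1 - a) := by ring
      rw [h3]; exact dvd_add h1 ha1
    · intro i hi
      rcases Finset.mem_insert.1 hi with rfl | hi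
      · exact ⟨q, hq, hq2⟩
      · obtain ⟨r, hr, hdvd⟩ := hcov i hi
        refine ⟨r, Finset.mem_of_mem_erase hr, ?_⟩
        have h1 : (r : ℤ) ∣ a2 - a1 := by
          refine dvd_trans ?_ ha2
          have h4 : r ∣ N * ∏ q ∈ R.erase q, q :=
            Dvd.dvd.mul_left (Finset.dvd_prod_of_mem _ hr) _
          exact_mod_cast h4
        have h3 : a2 + i = (a2 - a1) + (a1 + i) := by ring
        rw [h3]; exact dvd_add h1 hdvd

lemma totient_prod_primes (P : Finset ℕ) (hP : ∀ p ∈ P, p.Prime) :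
    ((Nat.totient (∏ p ∈ P, p) : ℕ) : ℝ) = ∏ p ∈ P, ((p : ℝ) - 1) := by
  induction P using Finset.induction_on with
  | empty => simp
  | insert p P hp ih =>
    have hpp := hP p (Finset.mem_insert_self _ _)
    have hP' : ∀ q ∈ P, q.Prime := fun q hq => hP q (Finset.mem_insert_of_mem hq)
    have hcop : Nat.Coprime p (∏ q ∈ P, q) := by
      refine Nat.Coprime.prod_right fun q hq => ?_
      exact (Nat.coprime_primes hpp (hP' q hq)).2 (fun h => hp (h ▸ hq))
    rw [Finset.prod_insert hp, Nat.totient_mul hcop, Nat.totient_prime hpp,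
      Finset.prod_insert hp]
    rw [Nat.cast_mul, Nat.cast_sub hpp.one_le, ih hP']
    simp

/-- Natural representative of an integer modulo `N`. -/
lemma exists_nat_rep (a : ℤ) (N : ℕ) (hN : 0 < N) : ∃ b : ℕ, (N : ℤ) ∣ a - b := by
  have hN' : (0 : ℤ) < N := by exact_mod_cast hN
  refine ⟨(a % N).toNat, ?_⟩
  rw [Int.toNat_of_nonneg (Int.emod_nonneg _ hN'.ne')]
  exact Int.dvd_self_sub_emod

/-- Extending a run by new primes: the small primes `P` sift the window, the other new primes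
take the remaining positions one by one. -/
theorem window_core (S R P : Finset ℕ) (hS : ∀ p ∈ S, p.Prime) (hR : ∀ p ∈ R, p.Prime)
    (hP : ∀ p ∈ P, p.Prime) (hdisj : Disjoint S R) (hPsub : P ⊆ S ∪ R) (t : ℕ)
    (ht : Nat.totient (∏ p ∈ P, p) * (t + 1) + P.card ≤ R.card) (L : ℕ) (hrun : RunOn S L) :
    RunOn (S ∪ R) (L + (∏ p ∈ P, p) * t) := by
  obtain ⟨a, hrun⟩ := hrun
  set M := ∏ p ∈ P, p with hMdef
  have hMpos : 0 < M := Finset.prod_pos fun p hp => (hP p hp).pos
  set S1 := S ∪ P with hS1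
  have hS1p : ∀ p ∈ S1, p.Prime := by
    intro p hp
    rcases Finset.mem_union.1 hp with hp | hp
    · exact hS p hp
    · exact hP p hp
  set N := ∏ p ∈ S1, p with hN
  have hNpos : 0 < N := Finset.prod_pos fun p hp => (hS1p p hp).pos
  obtain ⟨b, hb⟩ := exists_nat_rep a M hMpos
  set U := (Finset.Ico L (L + M * t)).filter (fun i => Nat.Coprime M (b + i)) with hU
  have hUcard : U.card ≤ Nat.totient M * (t + 1) := by
    have h5 : U.card ≤ ((Finset.Ico (b + L) (b + L + M * t)).filter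
        (fun x => Nat.Coprime M x)).card := by
      apply Finset.card_le_card_of_injOn (fun i => b + i)
      · intro i hi
        have hi' := Finset.mem_filter.1 (Finset.mem_coe.1 hi)
        have hi2 := Finset.mem_Ico.1 hi'.1
        refine Finset.mem_coe.2 (Finset.mem_filter.2 ⟨Finset.mem_Ico.2
          ⟨by show b + L ≤ b + i; omega, by show b + i < b + L + M * t; omega⟩, hi'.2⟩)
      · intro x _ y _ hxy
        exact Nat.add_left_cancel hxy
    have h6 := Nat.Ico_filter_coprime_le (a := M) (b + L) (M * t) hMpos.ne'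
    rw [Nat.mul_div_cancel_left _ hMpos] at h6
    exact h5.trans h6
  set R' := R \ P with hR'
  have hR'card : U.card ≤ R'.card := by
    have h7 : R.card - P.card ≤ R'.card := Finset.le_card_sdiff P R
    omega
  have hR'p : ∀ q ∈ R', q.Prime := fun q hq => hR q (Finset.mem_sdiff.1 hq).1
  have hR'N : ∀ q ∈ R', ¬ q ∣ N := by
    intro q hq hdvd
    have hq' := Finset.mem_sdiff.1 hq
    obtain ⟨r, hr, hqr⟩ := (Prime.dvd_finsetProd_iff (hR q hq'.1).prime _).1 hdvd
    have hqe : q = r := (Nat.prime_dvd_prime_iff_eq (hR q hq'.1) (hS1p r hr)).1 hqr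
    subst hqe
    rcases Finset.mem_union.1 hr with h | h
    · exact (Finset.disjoint_left.1 hdisj h) hq'.1
    · exact hq'.2 h
  obtain ⟨a', ha', hcov⟩ := cover_prescribed N a U R' hR'p hR'N hR'card
  refine ⟨a', ?_⟩
  intro i hi
  by_cases hiL : i < L
  · obtain ⟨p, hp, hdvd⟩ := hrun i hiL
    refine ⟨p, Finset.mem_union_left _ hp, ?_⟩
    have h9 : (p : ℤ) ∣ a' - a := by
      refine dvd_trans ?_ ha'
      have : p ∣ N := Finset.dvd_prod_of_mem _ (Finset.mem_union_left _ hp)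
      exact_mod_cast this
    have h10 : a' + i = (a' - a) + (a + i) := by ring
    rw [h10]; exact dvd_add h9 hdvd
  · by_cases hc : Nat.Coprime M (b + i)
    · have hiU : i ∈ U := Finset.mem_filter.2 ⟨Finset.mem_Ico.2 ⟨by omega, hi⟩, hc⟩
      obtain ⟨q, hq, hdvd⟩ := hcov i hiU
      exact ⟨q, Finset.mem_union_right _ (Finset.mem_sdiff.1 hq).1, hdvd⟩
    · obtain ⟨p, hpp, hpM, hpb⟩ := Nat.Prime.not_coprime_iff_dvd.1 hc
      obtain ⟨q, hq, hpq⟩ := (Prime.dvd_finsetProd_iff hpp.prime _).1 hpM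
      have hpqe : p = q := (Nat.prime_dvd_prime_iff_eq hpp (hP q hq)).1 hpq
      subst hpqe
      refine ⟨p, hPsub hq, ?_⟩
      have h9 : (p : ℤ) ∣ a' - a := by
        refine dvd_trans ?_ ha'
        have : p ∣ N := Finset.dvd_prod_of_mem _ (Finset.mem_union_right _ hq)
        exact_mod_cast this
      have h11 : (p : ℤ) ∣ a - b := by
        refine dvd_trans ?_ hb
        exact_mod_cast hpM
      have h12 : (p : ℤ) ∣ (b : ℤ) + i := by exact_mod_cast hpb
      have h10 : a' + i = (a' - a) + ((a - b) + ((b : ℤ) + i)) := by ring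
      rw [h10]
      exact dvd_add h9 (dvd_add h11 h12)

/-- Euler's product bound. -/
lemma euler_bound (w : ℕ) :
    Real.log ((w : ℝ) + 1) ≤ ∏ p ∈ Nat.primesBelow (w + 1), (1 - 1 / (p : ℝ))⁻¹ := by
  let f : ℕ →* ℝ :=
    { toFun := fun n => (n : ℝ)⁻¹
      map_one' := by simp
      map_mul' := by
        intro x y
        push_cast
        rw [mul_inv] }
  have hf : ∀ {p : ℕ}, p.Prime → ‖f p‖ < 1 := by
    intro p hp
    have hp1 : (1 : ℝ) < p := by exact_mod_cast hp.one_lt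
    show ‖(p : ℝ)⁻¹‖ < 1
    rw [Real.norm_of_nonneg (by positivity)]
    exact inv_lt_one_of_one_lt₀ hp1
  have hs := (EulerProduct.summable_and_hasSum_smoothNumbers_prod_primesBelow_geometric hf
    (w + 1)).2
  have hle := sum_le_hasSum ((Finset.Icc 1 w).subtype (· ∈ (w + 1).smoothNumbers))
    (fun x _ => by
      show (0 : ℝ) ≤ ((x : ℕ) : ℝ)⁻¹
      positivity) hs
  have hsum : ∑ x ∈ (Finset.Icc 1 w).subtype (· ∈ (w + 1).smoothNumbers), f (x : ℕ) =
      ∑ d ∈ Finset.Icc 1 w, f d :=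
    Finset.sum_subtype_of_mem (fun d => f d) (fun d hd => by
      have hd' := Finset.mem_Icc.1 hd
      exact Nat.mem_smoothNumbers_of_lt (by omega) (by omega))
  rw [hsum] at hle
  have hprod : ∏ p ∈ Nat.primesBelow (w + 1), (1 - f p)⁻¹ =
      ∏ p ∈ Nat.primesBelow (w + 1), (1 - 1 / (p : ℝ))⁻¹ := by
    apply Finset.prod_congr rfl
    intro p _
    show (1 - (p : ℝ)⁻¹)⁻¹ = (1 - 1 / (p : ℝ))⁻¹
    rw [one_div]
  rw [hprod] at hle
  have hharm : Real.log ((w : ℝ) + 1) ≤ ∑ d ∈ Finset.Icc 1 w, f d := by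
    have h1 := log_add_one_le_harmonic w
    rw [harmonic_eq_sum_Icc] at h1
    push_cast at h1
    exact h1
  exact hharm.trans hle

lemma totient_real (A : Finset ℕ) (hAp : ∀ p ∈ A, p.Prime) :
    ((Nat.totient (∏ p ∈ A, p) : ℕ) : ℝ) = ((∏ p ∈ A, p : ℕ) : ℝ) * ∏ p ∈ A, (1 - 1 / (p : ℝ)) := by
  rw [totient_prod_primes A hAp]
  push_cast
  rw [← Finset.prod_mul_distrib]
  apply Finset.prod_congr rfl
  intro p hp
  have hp0 : (p : ℝ) ≠ 0 := by
    exact_mod_cast (hAp p hp).pos.ne'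
  field_simp

/-- `log (w + 1) * phi (M) ≤ M` for `M` the product of the primes up to `w`. -/
lemma log_mul_totient_le (w : ℕ) :
    Real.log ((w : ℝ) + 1) * (Nat.totient (∏ p ∈ Nat.primesBelow (w + 1), p) : ℝ) ≤
      ((∏ p ∈ Nat.primesBelow (w + 1), p : ℕ) : ℝ) := by
  have hAp : ∀ p ∈ Nat.primesBelow (w + 1), p.Prime := fun p hp => Nat.prime_of_mem_primesBelow hp
  rw [totient_real _ hAp]
  have hV : 0 < ∏ p ∈ Nat.primesBelow (w + 1), (1 - 1 / (p : ℝ)) := by
    apply Finset.prod_pos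
    intro p hp
    have h1 : (1 : ℝ) < p := by exact_mod_cast (hAp p hp).one_lt
    have h2 : 1 / (p : ℝ) < 1 := by
      rw [div_lt_one (by linarith)]
      exact h1
    linarith
  have h := euler_bound w
  rw [Finset.prod_inv_distrib] at h
  have hM : (0 : ℝ) ≤ ((∏ p ∈ Nat.primesBelow (w + 1), p : ℕ) : ℝ) := by positivity
  have h3 : Real.log ((w : ℝ) + 1) * ∏ p ∈ Nat.primesBelow (w + 1), (1 - 1 / (p : ℝ)) ≤ 1 := by
    have h4 := mul_le_mul_of_nonneg_right h hV.le
    rwa [inv_mul_cancel₀ hV.ne'] at h4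
  calc Real.log ((w : ℝ) + 1) * (((∏ p ∈ Nat.primesBelow (w + 1), p : ℕ) : ℝ) *
        ∏ p ∈ Nat.primesBelow (w + 1), (1 - 1 / (p : ℝ)))
      = ((∏ p ∈ Nat.primesBelow (w + 1), p : ℕ) : ℝ) * (Real.log ((w : ℝ) + 1) *
        ∏ p ∈ Nat.primesBelow (w + 1), (1 - 1 / (p : ℝ))) := by ring
    _ ≤ ((∏ p ∈ Nat.primesBelow (w + 1), p : ℕ) : ℝ) * 1 := by gcongr
    _ = _ := mul_one _

lemma RunOn.mono {S : Finset ℕ} {L L' : ℕ} (h : L' ≤ L) (hrun : RunOn S L) : RunOn S L' := by
  obtain ⟨a, ha⟩ := hrun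
  exact ⟨a, fun i hi => ha i (by omega)⟩

lemma two_mul_succ_le (w : ℕ) (hw : 1 ≤ w) : 2 * (w + 1) ≤ 16 ^ w := by
  induction w, hw using Nat.le_induction with
  | base => norm_num
  | succ n hn ih =>
    rw [pow_succ]
    omega

/-- The quantitative window theorem. -/
theorem window_quant : ∃ m₀ : ℕ, ∀ S R : Finset ℕ, (∀ p ∈ S, p.Prime) → (∀ p ∈ R, p.Prime) →
    Disjoint S R → m₀ ≤ R.card →
    (∀ p : ℕ, p.Prime → (p : ℝ) ≤ Real.log R.card → p ∈ S ∪ R) →
    ∀ L : ℕ, RunOn S L →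
      RunOn (S ∪ R) (L + ⌊(R.card : ℝ) * Real.log (Real.log R.card) / 8⌋₊) := by
  refine ⟨⌈Real.exp (Real.exp 4)⌉₊ + 16, ?_⟩
  intro S R hS hR hdisj hm hsmall L hrun
  set m := R.card with hmdef
  have hm16 : 16 ≤ m := by omega
  have hmreal : Real.exp (Real.exp 4) ≤ (m : ℝ) := by
    have h1 : ⌈Real.exp (Real.exp 4)⌉₊ ≤ m := by omega
    exact (Nat.le_ceil _).trans (by exact_mod_cast h1)
  have hmpos : (0 : ℝ) < m := by
    have : 0 < m := by omega
    exact_mod_cast this
  have hlogm : Real.exp 4 ≤ Real.log m := (Real.le_log_iff_exp_le hmpos).2 hmreal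
  have hlogmpos : 0 < Real.log m := lt_of_lt_of_le (Real.exp_pos _) hlogm
  set X := Real.log (Real.log m) with hX
  have hX4 : 4 ≤ X := (Real.le_log_iff_exp_le hlogmpos).2 hlogm
  set w := Nat.log 16 m with hw
  have hw1 : 16 ^ w ≤ m := Nat.pow_log_le_self 16 (by omega)
  have hw2 : m < 16 ^ (w + 1) := Nat.lt_pow_succ_log_self (by norm_num) m
  have hwpos : 1 ≤ w := Nat.log_pos (by norm_num) hm16
  set P := Nat.primesBelow (w + 1) with hPdef
  have hPp : ∀ p ∈ P, p.Prime := fun p hp => Nat.prime_of_mem_primesBelow hp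
  have hlog16 : Real.log 16 = 4 * Real.log 2 := by
    rw [show (16 : ℝ) = 2 ^ 4 by norm_num, Real.log_pow]
    norm_num
  have hlog2a := Real.log_two_gt_d9
  have hlog2b := Real.log_two_lt_d9
  have hwlog : (w : ℝ) ≤ Real.log m := by
    have h1 : Real.log ((16 : ℝ) ^ w) ≤ Real.log m :=
      Real.log_le_log (by positivity) (by exact_mod_cast hw1)
    rw [Real.log_pow, hlog16] at h1
    have hw0 : (0 : ℝ) ≤ w := by positivity
    nlinarith
  have hlogw : Real.log m ≤ 3 * ((w : ℝ) + 1) := by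
    have h1 : Real.log m ≤ Real.log ((16 : ℝ) ^ (w + 1)) :=
      Real.log_le_log hmpos (by exact_mod_cast hw2.le)
    rw [Real.log_pow, hlog16] at h1
    push_cast at h1
    have hw0 : (0 : ℝ) ≤ w := by positivity
    nlinarith
  have hPsub : P ⊆ S ∪ R := by
    intro p hp
    apply hsmall p (hPp p hp)
    have h1 : p < w + 1 := Nat.lt_of_mem_primesBelow hp
    have h2 : (p : ℝ) ≤ w := by exact_mod_cast Nat.lt_succ_iff.1 h1
    exact h2.trans hwlog
  set M := ∏ p ∈ P, p with hMdef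
  have hMpos : 0 < M := Finset.prod_pos fun p hp => (hPp p hp).pos
  have hM4 : M ≤ 4 ^ w := primorial_le_four_pow w
  have hMsq : M * M ≤ m := by
    calc M * M ≤ 4 ^ w * 4 ^ w := Nat.mul_le_mul hM4 hM4
      _ = 16 ^ w := by rw [← mul_pow]; norm_num
      _ ≤ m := hw1
  have h4M : 4 * M ≤ m := by
    rcases Nat.lt_or_ge M 4 with h | h
    · omega
    · calc 4 * M ≤ M * M := Nat.mul_le_mul_right _ h
        _ ≤ m := hMsq
  set f := Nat.totient M with hfdef
  have hfpos : 0 < f := Nat.totient_pos.2 hMpos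
  have hfM : f ≤ M := Nat.totient_le _
  have hr : P.card ≤ w + 1 := by
    have h1 : P.card ≤ (Finset.range (w + 1)).card := Finset.card_filter_le _ _
    simpa using h1
  have h2r : 2 * (w + 1) ≤ m := (two_mul_succ_le w hwpos).trans hw1
  obtain ⟨D, hD⟩ : ∃ D, D + P.card = m := ⟨m - P.card, by omega⟩
  set t' := D / f with ht'
  have h1 : f * t' ≤ D := Nat.mul_div_le _ _
  have h2 : D < f * (t' + 1) := Nat.lt_mul_div_succ _ hfpos
  have ht'pos : 1 ≤ t' := Nat.div_pos (by omega) hfpos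
  obtain ⟨t, ht⟩ : ∃ t, t' = t + 1 := ⟨t' - 1, by omega⟩
  rw [ht] at h1 h2
  have hkey : f * (t + 1) + P.card ≤ m := by omega
  have hcore := window_core S R P hS hR hPp hdisj hPsub t hkey L hrun
  refine RunOn.mono ?_ hcore
  apply Nat.add_le_add_left
  apply Nat.floor_le_of_le
  -- the real inequality
  have hY : X / 2 ≤ Real.log ((w : ℝ) + 1) := by
    have hw0 : (0 : ℝ) < (w : ℝ) + 1 := by positivity
    have h3 : X ≤ Real.log (3 * ((w : ℝ) + 1)) := Real.log_le_log hlogmpos hlogw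
    rw [Real.log_mul (by norm_num) hw0.ne'] at h3
    have h4 : Real.log 3 ≤ 3 - 1 := Real.log_le_sub_one_of_pos (by norm_num)
    linarith
  set Y := Real.log ((w : ℝ) + 1) with hYdef
  have hYpos : 0 ≤ Y := by linarith
  have hEuler : Y * (f : ℝ) ≤ (M : ℝ) := log_mul_totient_le w
  have hDreal : (m : ℝ) / 2 ≤ (D : ℝ) := by
    have h3 : (D : ℝ) + P.card = m := by exact_mod_cast hD
    have h4 : 2 * ((P.card : ℝ)) ≤ m := by
      have : 2 * P.card ≤ m := by omega
      exact_mod_cast this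
    linarith
  have h5 : (D : ℝ) ≤ (f : ℝ) * ((t : ℝ) + 2) := by
    have h6 : D ≤ f * (t + 1 + 1) := h2.le
    have h7 : (D : ℝ) ≤ ((f * (t + 1 + 1) : ℕ) : ℝ) := by exact_mod_cast h6
    push_cast at h7
    linarith
  have h6 : Y * ((m : ℝ) / 2) ≤ (M : ℝ) * ((t : ℝ) + 2) := by
    have ht0 : (0 : ℝ) ≤ (t : ℝ) + 2 := by positivity
    calc Y * ((m : ℝ) / 2) ≤ Y * (D : ℝ) := by gcongr
      _ ≤ Y * ((f : ℝ) * ((t : ℝ) + 2)) := by gcongr
      _ = (Y * (f : ℝ)) * ((t : ℝ) + 2) := by ring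
      _ ≤ (M : ℝ) * ((t : ℝ) + 2) := by gcongr
  have h7 : (4 : ℝ) * M ≤ m := by exact_mod_cast h4M
  have h8 : (X / 2) * ((m : ℝ) / 2) ≤ Y * ((m : ℝ) / 2) := by gcongr
  have h9 : (m : ℝ) / 2 ≤ (m : ℝ) * X / 8 := by nlinarith
  have hgoal : (m : ℝ) * X / 8 ≤ (M : ℝ) * (t : ℝ) := by nlinarith
  show (m : ℝ) * X / 8 ≤ ((M * t : ℕ) : ℝ)
  rw [Nat.cast_mul]
  exact hgoal

/-- The uniform window increment for runs. -/
theorem run_increment_quant : ∃ m₀ : ℕ, ∀ m, m₀ ≤ m → ∀ k L : ℕ, HasRun k L →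
    HasRun (k + m) (L + ⌊(m : ℝ) * Real.log (Real.log m) / 8⌋₊) := by
  obtain ⟨m₀, hm₀⟩ := window_quant
  refine ⟨m₀ + 1, ?_⟩
  rintro m hm k L ⟨S, hS, hcard, hrun⟩
  have hmpos : (0 : ℝ) < m := by
    have : 0 < m := by omega
    exact_mod_cast this
  set n := ⌊Real.log m⌋₊ with hn
  have hn1 : n + 1 ≤ m := by
    have h1 : Real.log m ≤ (m : ℝ) - 1 := Real.log_le_sub_one_of_pos hmpos
    have h2 : n ≤ m - 1 := by
      apply Nat.floor_le_of_le
      rw [Nat.cast_sub (by omega)]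
      simpa using h1
    omega
  set P' := Nat.primesBelow (n + 1) \ S with hP'
  have hP'card : P'.card ≤ m := by
    have h1 : P'.card ≤ (Nat.primesBelow (n + 1)).card := Finset.card_le_card Finset.sdiff_subset
    have h2 : (Nat.primesBelow (n + 1)).card ≤ (Finset.range (n + 1)).card :=
      Finset.card_filter_le _ _
    simp only [Finset.card_range] at h2
    omega
  have hinf : ({p : ℕ | p.Prime} \ ((S ∪ P' : Finset ℕ) : Set ℕ)).Infinite :=
    Nat.infinite_setOfPred_prime.sdiff (Finset.finite_toSet _)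
  obtain ⟨F, hF, hFcard⟩ := hinf.exists_subset_card_eq (m - P'.card)
  have hFp : ∀ p ∈ F, p.Prime ∧ p ∉ S ∪ P' := by
    intro p hp
    have := hF (Finset.mem_coe.2 hp)
    exact ⟨this.1, fun h => this.2 (Finset.mem_coe.2 h)⟩
  set R := P' ∪ F with hRdef
  have hdisjPF : Disjoint P' F := by
    rw [Finset.disjoint_left]
    intro p hp hpF
    exact (hFp p hpF).2 (Finset.mem_union_right _ hp)
  have hRcard : R.card = m := by
    rw [hRdef, Finset.card_union_of_disjoint hdisjPF, hFcard]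
    omega
  have hRp : ∀ p ∈ R, p.Prime := by
    intro p hp
    rcases Finset.mem_union.1 hp with h | h
    · exact Nat.prime_of_mem_primesBelow (Finset.mem_sdiff.1 h).1
    · exact (hFp p h).1
  have hdisj : Disjoint S R := by
    rw [Finset.disjoint_left]
    intro p hpS hpR
    rcases Finset.mem_union.1 hpR with h | h
    · exact (Finset.mem_sdiff.1 h).2 hpS
    · exact (hFp p h).2 (Finset.mem_union_left _ hpS)
  have hsmall : ∀ p : ℕ, p.Prime → (p : ℝ) ≤ Real.log R.card → p ∈ S ∪ R := by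
    intro p hp hple
    rw [hRcard] at hple
    by_cases hpS : p ∈ S
    · exact Finset.mem_union_left _ hpS
    · refine Finset.mem_union_right _ (Finset.mem_union_left _ (Finset.mem_sdiff.2 ⟨?_, hpS⟩))
      have h1 : p ≤ n := Nat.le_floor hple
      exact Nat.mem_primesBelow.2 ⟨by omega, hp⟩
  have hmain := hm₀ S R hS hRp hdisj (by rw [hRcard]; omega) hsmall L hrun
  rw [hRcard] at hmain
  refine ⟨S ∪ R, ?_, ?_, hmain⟩
  · intro p hp
    rcases Finset.mem_union.1 hp with h | h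
    · exact hS p h
    · exact hRp p h
  · calc (S ∪ R).card ≤ S.card + R.card := Finset.card_union_le _ _
      _ ≤ k + m := by omega

/-- The first `k` primes. -/
noncomputable def firstPrimes (k : ℕ) : Finset ℕ := (Finset.range k).image (Nat.nth Nat.Prime)

lemma nth_prime_injective : Function.Injective (Nat.nth Nat.Prime) :=
  Nat.nth_injective Nat.infinite_setOfPred_prime

/-- The uniform window increment for the first primes. -/
theorem primorial_increment_quant : ∃ m₀ : ℕ, ∀ m, m₀ ≤ m → ∀ k L : ℕ, RunOn (firstPrimes k) L →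
    RunOn (firstPrimes (k + m)) (L + ⌊(m : ℝ) * Real.log (Real.log m) / 8⌋₊) := by
  obtain ⟨m₀, hm₀⟩ := window_quant
  refine ⟨m₀ + 1, ?_⟩
  intro m hm k L hrun
  have hmpos : (0 : ℝ) < m := by
    have : 0 < m := by omega
    exact_mod_cast this
  set R := (Finset.range m).image (fun i => Nat.nth Nat.Prime (k + i)) with hRdef
  have hRcard : R.card = m := by
    rw [hRdef, Finset.card_image_of_injective, Finset.card_range]
    intro x y hxy
    have := nth_prime_injective hxy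
    omega
  have hSp : ∀ p ∈ firstPrimes k, p.Prime := by
    intro p hp
    obtain ⟨i, _, rfl⟩ := Finset.mem_image.1 hp
    exact Nat.prime_nth_prime i
  have hRp : ∀ p ∈ R, p.Prime := by
    intro p hp
    obtain ⟨i, _, rfl⟩ := Finset.mem_image.1 hp
    exact Nat.prime_nth_prime _
  have hdisj : Disjoint (firstPrimes k) R := by
    rw [Finset.disjoint_left]
    intro p hp hq
    obtain ⟨i, hi, rfl⟩ := Finset.mem_image.1 hp
    obtain ⟨j, _, hj⟩ := Finset.mem_image.1 hq
    have := nth_prime_injective hj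
    have hi' := Finset.mem_range.1 hi
    omega
  have hunion : firstPrimes k ∪ R = firstPrimes (k + m) := by
    ext p
    simp only [firstPrimes, hRdef, Finset.mem_union, Finset.mem_image, Finset.mem_range]
    constructor
    · rintro (⟨i, hi, rfl⟩ | ⟨i, hi, rfl⟩)
      · exact ⟨i, by omega, rfl⟩
      · exact ⟨k + i, by omega, rfl⟩
    · rintro ⟨i, hi, rfl⟩
      by_cases h : i < k
      · exact Or.inl ⟨i, h, rfl⟩
      · exact Or.inr ⟨i - k, by omega, by
          show Nat.nth Nat.Prime (k + (i - k)) = Nat.nth Nat.Prime i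
          congr 1
          omega⟩
  have hsmall : ∀ p : ℕ, p.Prime → (p : ℝ) ≤ Real.log R.card → p ∈ firstPrimes k ∪ R := by
    intro p hp hple
    rw [hRcard] at hple
    rw [hunion]
    have h1 : Real.log m ≤ (m : ℝ) - 1 := Real.log_le_sub_one_of_pos hmpos
    have h2 : (p : ℝ) ≤ (m : ℝ) - 1 := hple.trans h1
    have h3 : p + 1 ≤ m := by
      have : ((p + 1 : ℕ) : ℝ) ≤ m := by
        push_cast
        linarith
      exact_mod_cast this
    have h4 : Nat.count Nat.Prime p ≤ p := Nat.count_le _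
    refine Finset.mem_image.2 ⟨Nat.count Nat.Prime p, Finset.mem_range.2 (by omega), ?_⟩
    exact Nat.nth_count hp
  have hmain := hm₀ _ R hSp hRp hdisj (by rw [hRcard]; omega) hsmall L hrun
  rwa [hunion, hRcard] at hmain

lemma card_multiples_le (p k T : ℕ) (hp : 0 < p) :
    ((Finset.Ico k (k + T)).filter (fun x => p ∣ x)).card ≤ T / p + 1 := by
  have : ((Finset.Ico k (k + T)).filter (fun x => p ∣ x)).card ≤
      (Finset.range (T / p + 1)).card := by
    apply Finset.card_le_card_of_injOn (fun x => (x - k) / p)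
    · intro x hx
      have hx' := Finset.mem_filter.1 (Finset.mem_coe.1 hx)
      have hx2 := Finset.mem_Ico.1 hx'.1
      refine Finset.mem_coe.2 (Finset.mem_range.2 ?_)
      have h71 : (x - k) / p ≤ T / p := Nat.div_le_div_right (by omega)
      show (x - k) / p < T / p + 1
      omega
    · have aux : ∀ u v : ℕ, k ≤ p * u → u < v → (p * u - k) / p < (p * v - k) / p := by
        intro u v hk huv
        have h1 : p * (u + 1) ≤ p * v := Nat.mul_le_mul_left _ huv
        have h2 : p * (u + 1) = p * u + p := by ring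
        have h3 : p * u - k + p ≤ p * v - k := by omega
        have h4 : (p * u - k + p) / p = (p * u - k) / p + 1 := Nat.add_div_right _ hp
        have h5 : (p * u - k + p) / p ≤ (p * v - k) / p := Nat.div_le_div_right h3
        omega
      intro x hx y hy hxy
      have hx' := Finset.mem_filter.1 (Finset.mem_coe.1 hx)
      have hy' := Finset.mem_filter.1 (Finset.mem_coe.1 hy)
      obtain ⟨u, rfl⟩ := hx'.2
      obtain ⟨v, rfl⟩ := hy'.2
      have hx2 := Finset.mem_Ico.1 hx'.1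
      have hy2 := Finset.mem_Ico.1 hy'.1
      simp only at hxy
      rcases lt_trichotomy u v with h | h | h
      · have := aux u v hx2.1 h
        omega
      · rw [h]
      · have := aux v u hy2.1 h
        omega
  simpa using this

lemma card_coprime_multi (M k t : ℕ) :
    ((Finset.Ico k (k + M * t)).filter (fun x => Nat.Coprime M x)).card = t * Nat.totient M := by
  induction t with
  | zero => simp
  | succ t ih =>
    have h1 : k + M * (t + 1) = (k + M * t) + M := by ring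
    rw [h1, ← Finset.Ico_union_Ico_eq_Ico (a := k) (b := k + M * t) (c := k + M * t + M)
      (by omega) (by omega), Finset.filter_union, Finset.card_union_of_disjoint]
    · rw [ih, Nat.filter_coprime_Ico_eq_totient]
      ring
    · exact Finset.disjoint_filter_filter (Finset.Ico_disjoint_Ico_consecutive _ _ _)

/-- First moment bound with an exact small part. -/
theorem first_moment (S A : Finset ℕ) (hS : ∀ p ∈ S, p.Prime) (hA : A ⊆ S) (δ : ℝ) (hδ : 0 < δ)
    (h : δ ≤ ∏ p ∈ A, (1 - 1 / (p : ℝ)) - ∑ p ∈ S \ A, 1 / (p : ℝ)) (L : ℕ)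
    (hL : ((S \ A).card : ℝ) / δ + ∏ p ∈ A, (p : ℝ) ≤ L) (a : ℤ) :
    ∃ i : ℕ, i < L ∧ ∀ p ∈ S, ¬ (p : ℤ) ∣ a + i := by
  by_contra hcon
  push Not at hcon
  have hAp : ∀ p ∈ A, p.Prime := fun p hp => hS p (hA hp)
  set M := ∏ p ∈ A, p with hMdef
  have hMpos : 0 < M := Finset.prod_pos fun p hp => (hAp p hp).pos
  set N := ∏ p ∈ S, p with hN
  have hNpos : 0 < N := Finset.prod_pos fun p hp => (hS p hp).pos
  obtain ⟨b, hb⟩ := exists_nat_rep a N hNpos
  set t := L / M with ht
  set T := M * t with hT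
  have hTL : T ≤ L := Nat.mul_div_le _ _
  have hLT : L < M * (t + 1) := Nat.lt_mul_div_succ _ hMpos
  set B := S \ A with hB
  -- every coprime position is covered by a prime of `B`
  have hsub : (Finset.Ico b (b + T)).filter (fun x => Nat.Coprime M x) ⊆
      B.biUnion (fun p => (Finset.Ico b (b + T)).filter (fun x => p ∣ x)) := by
    intro x hx
    have hx' := Finset.mem_filter.1 hx
    have hx2 := Finset.mem_Ico.1 hx'.1
    obtain ⟨p, hp, hdvd⟩ := hcon (x - b) (by omega)
    have h1 : (p : ℤ) ∣ a - b := by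
      refine dvd_trans ?_ hb
      have : p ∣ N := Finset.dvd_prod_of_mem _ hp
      exact_mod_cast this
    have h2 : ((x - b : ℕ) : ℤ) = (x : ℤ) - b := by
      rw [Nat.cast_sub hx2.1]
    have h3 : (x : ℤ) = (a + ((x - b : ℕ) : ℤ)) - (a - b) := by rw [h2]; ring
    have h4 : (p : ℤ) ∣ (x : ℤ) := by
      rw [h3]
      exact dvd_sub hdvd h1
    have h5 : p ∣ x := by exact_mod_cast h4
    have hpA : p ∉ A := by
      intro hpA
      have h6 : p ∣ M := Finset.dvd_prod_of_mem _ hpA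
      have h7 : p ∣ 1 := by
        have := Nat.dvd_gcd h6 h5
        rwa [hx'.2] at this
      exact (hS p hp).one_lt.ne' (Nat.dvd_one.1 h7)
    exact Finset.mem_biUnion.2 ⟨p, Finset.mem_sdiff.2 ⟨hp, hpA⟩, Finset.mem_filter.2 ⟨hx'.1, h5⟩⟩
  have hcount : t * Nat.totient M ≤ ∑ p ∈ B, (T / p + 1) := by
    calc t * Nat.totient M = ((Finset.Ico b (b + T)).filter (fun x => Nat.Coprime M x)).card :=
          (card_coprime_multi M b t).symm
      _ ≤ (B.biUnion (fun p => (Finset.Ico b (b + T)).filter (fun x => p ∣ x))).card :=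
          Finset.card_le_card hsub
      _ ≤ ∑ p ∈ B, ((Finset.Ico b (b + T)).filter (fun x => p ∣ x)).card :=
          Finset.card_biUnion_le
      _ ≤ ∑ p ∈ B, (T / p + 1) := by
          apply Finset.sum_le_sum
          intro p hp
          exact card_multiples_le p b T
            (hS p (Finset.mem_sdiff.1 hp).1).pos
  -- pass to the reals
  have hBp : ∀ p ∈ B, (0 : ℝ) < p := fun p hp => by
    exact_mod_cast (hS p (Finset.mem_sdiff.1 hp).1).pos
  have hreal1 : ((∑ p ∈ B, (T / p + 1) : ℕ) : ℝ) ≤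
      (T : ℝ) * (∑ p ∈ B, 1 / (p : ℝ)) + B.card := by
    push_cast
    rw [Finset.sum_add_distrib, Finset.mul_sum]
    simp only [Finset.sum_const, nsmul_eq_mul, mul_one]
    gcongr with p hp
    have : ((T / p : ℕ) : ℝ) ≤ (T : ℝ) / p := Nat.cast_div_le
    calc ((T / p : ℕ) : ℝ) ≤ (T : ℝ) / p := this
      _ = (T : ℝ) * (1 / (p : ℝ)) := by ring
  have hprod : ((Nat.totient M : ℕ) : ℝ) = (M : ℝ) * ∏ p ∈ A, (1 - 1 / (p : ℝ)) := by
    rw [hMdef, totient_prod_primes A hAp]
    push_cast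
    rw [← Finset.prod_mul_distrib]
    apply Finset.prod_congr rfl
    intro p hp
    have hp0 : (p : ℝ) ≠ 0 := by
      exact_mod_cast (hAp p hp).pos.ne'
    field_simp
  have hreal2 : (T : ℝ) * ∏ p ∈ A, (1 - 1 / (p : ℝ)) ≤
      (T : ℝ) * (∑ p ∈ B, 1 / (p : ℝ)) + B.card := by
    have h1 : ((t * Nat.totient M : ℕ) : ℝ) ≤ ((∑ p ∈ B, (T / p + 1) : ℕ) : ℝ) := by
      exact_mod_cast hcount
    have h2 : ((t * Nat.totient M : ℕ) : ℝ) = (T : ℝ) * ∏ p ∈ A, (1 - 1 / (p : ℝ)) := by
      rw [Nat.cast_mul, hprod, hT, Nat.cast_mul]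
      ring
    rw [← h2]
    exact h1.trans hreal1
  have hTδ : (T : ℝ) * δ ≤ B.card := by
    have h1 : (T : ℝ) * δ ≤ (T : ℝ) * (∏ p ∈ A, (1 - 1 / (p : ℝ)) - ∑ p ∈ B, 1 / (p : ℝ)) := by
      gcongr
    have h2 : (T : ℝ) * (∏ p ∈ A, (1 - 1 / (p : ℝ)) - ∑ p ∈ B, 1 / (p : ℝ)) ≤ B.card := by
      rw [mul_sub]
      linarith
    exact h1.trans h2
  -- the length is too large
  have hMcast : ((M : ℕ) : ℝ) = ∏ p ∈ A, (p : ℝ) := by
    rw [hMdef]; push_cast; rfl
  have hLT' : (L : ℝ) < (T : ℝ) + M := by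
    have h1 : (L : ℝ) < ((M * (t + 1) : ℕ) : ℝ) := by exact_mod_cast hLT
    have h2 : ((M * (t + 1) : ℕ) : ℝ) = (T : ℝ) + M := by
      rw [hT]; push_cast; ring
    linarith
  have hfin : (B.card : ℝ) / δ < T := by
    rw [hMcast] at hLT'
    linarith
  rw [div_lt_iff₀ hδ] at hfin
  linarith

end Vale.Agent.Lib.P013
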