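import Mathlib
import Vale.Agent.Lib.P013.Runs
import Vale.Agent.Lib.P001.Arith

/-!
The window increment for runs, of order `m log m`, from the arithmetic large sieve.
-/

namespace Vale.Agent.Lib.P013

open Finset

/-- Extending a run by new primes: the small primes `P` sift the window, the other new primes
take the remaining positions one by one. -/
theorem window_core2 (S R P : Finset ℕ) (hS : ∀ p ∈ S, p.Prime) (hR : ∀ p ∈ R, p.Prime)
    (hP : ∀ p ∈ P, p.Prime) (hdisj : Disjoint S R) (hPsub : P ⊆ S ∪ R) (T : ℕ)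
    (hcount : ∀ c : ℕ, ((Finset.Ico c (c + T)).filter
      (fun x => Nat.Coprime (∏ p ∈ P, p) x)).card + P.card ≤ R.card)
    (L : ℕ) (hrun : RunOn S L) : RunOn (S ∪ R) (L + T) := by
  obtain ⟨a, hrun⟩ := hrun
  set M := ∏ p ∈ P, p with hMdef
  have hMpos : 0 < M := Finset.prod_pos fun p hp => (hP p hp).pos
  set S1 := S ∪ P with hS1
  have hS1p : ∀ p ∈ S1, p.Prime := by
    intro p hp
    rcases Finset.mem_union.1 hp with hp | hp
    · exact hS p hp
    · exact hP p hp
  set N := ∏ p ∈ S1, p with hN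
  obtain ⟨b, hb⟩ := exists_nat_rep a M hMpos
  set U := (Finset.Ico L (L + T)).filter (fun i => Nat.Coprime M (b + i)) with hU
  have hUcard : U.card ≤ ((Finset.Ico (b + L) (b + L + T)).filter
      (fun x => Nat.Coprime M x)).card := by
    apply Finset.card_le_card_of_injOn (fun i => b + i)
    · intro i hi
      have hi' := Finset.mem_filter.1 (Finset.mem_coe.1 hi)
      have hi2 := Finset.mem_Ico.1 hi'.1
      refine Finset.mem_coe.2 (Finset.mem_filter.2 ⟨Finset.mem_Ico.2
        ⟨by show b + L ≤ b + i; omega, by show b + i < b + L + T; omega⟩, hi'.2⟩)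
    · intro x _ y _ hxy
      exact Nat.add_left_cancel hxy
  have hc := hcount (b + L)
  set R' := R \ P with hR'
  have hR'card : U.card ≤ R'.card := by
    have h7 : R.card - P.card ≤ R'.card := Finset.le_card_sdiff P R
    omega
  have hR'p : ∀ q ∈ R', q.Prime := fun q hq => hR q (Finset.mem_sdiff.1 hq).1
  have hR'N : ∀ q ∈ R', ¬ q ∣ N := by
    intro q hq hdvd
    have hq' := Finset.mem_sdiff.1 hq
    obtain ⟨r, hr, hqr⟩ := (Prime.dvd_finsetProd_iff (hR q hq'.1).prime _).1 hdvd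
    have hqe : q = r := (Nat.prime_dvd_prime_iff_eq (hR q hq'.1) (hS1p r hr)).1 hqr
    subst hqe
    rcases Finset.mem_union.1 hr with h | h
    · exact (Finset.disjoint_left.1 hdisj h) hq'.1
    · exact hq'.2 h
  obtain ⟨a', ha', hcov⟩ := cover_prescribed N a U R' hR'p hR'N hR'card
  refine ⟨a', ?_⟩
  intro i hi
  by_cases hiL : i < L
  · obtain ⟨p, hp, hdvd⟩ := hrun i hiL
    refine ⟨p, Finset.mem_union_left _ hp, ?_⟩
    have h9 : (p : ℤ) ∣ a' - a := by
      refine dvd_trans ?_ ha'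
      have : p ∣ N := Finset.dvd_prod_of_mem _ (Finset.mem_union_left _ hp)
      exact_mod_cast this
    have h10 : a' + i = (a' - a) + (a + i) := by ring
    rw [h10]; exact dvd_add h9 hdvd
  · by_cases hc : Nat.Coprime M (b + i)
    · have hiU : i ∈ U := Finset.mem_filter.2 ⟨Finset.mem_Ico.2 ⟨by omega, hi⟩, hc⟩
      obtain ⟨q, hq, hdvd⟩ := hcov i hiU
      exact ⟨q, Finset.mem_union_right _ (Finset.mem_sdiff.1 hq).1, hdvd⟩
    · obtain ⟨p, hpp, hpM, hpb⟩ := Nat.Prime.not_coprime_iff_dvd.1 hc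
      obtain ⟨q, hq, hpq⟩ := (Prime.dvd_finsetProd_iff hpp.prime _).1 hpM
      have hpqe : p = q := (Nat.prime_dvd_prime_iff_eq hpp (hP q hq)).1 hpq
      subst hpqe
      refine ⟨p, hPsub hq, ?_⟩
      have h9 : (p : ℤ) ∣ a' - a := by
        refine dvd_trans ?_ ha'
        have : p ∣ N := Finset.dvd_prod_of_mem _ (Finset.mem_union_right _ hq)
        exact_mod_cast this
      have h11 : (p : ℤ) ∣ a - b := by
        refine dvd_trans ?_ hb
        exact_mod_cast hpM
      have h12 : (p : ℤ) ∣ (b : ℤ) + i := by exact_mod_cast hpb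
      have h10 : a' + i = (a' - a) + ((a - b) + ((b : ℤ) + i)) := by ring
      rw [h10]
      exact dvd_add h9 (dvd_add h11 h12)

/-- Sieve weight. -/
noncomputable def hw (p : ℕ) : ℝ := ((p - 1 : ℕ) : ℝ)⁻¹

lemma hw_nonneg (p : ℕ) : 0 ≤ hw p := by
  unfold hw
  positivity

lemma inv_le_prod_hw (q : ℕ) (hq : Squarefree q) :
    (q : ℝ)⁻¹ ≤ ∏ p ∈ q.primeFactors, hw p := by
  have h1 : ((∏ p ∈ q.primeFactors, p : ℕ) : ℝ) = q := by
    rw [Nat.prod_primeFactors_of_squarefree hq]
  rw [← h1]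
  push_cast
  rw [← Finset.prod_inv_distrib]
  apply Finset.prod_le_prod
  · intro p _
    positivity
  · intro p hp
    have hpp := Nat.prime_of_mem_primeFactors hp
    have h2 : 1 ≤ p - 1 := by
      have := hpp.two_le
      omega
    have h3 : (0 : ℝ) < ((p - 1 : ℕ) : ℝ) := by exact_mod_cast h2
    unfold hw
    apply inv_anti₀ h3
    have : p - 1 ≤ p := Nat.sub_le _ _
    exact_mod_cast this

lemma sum_sqfree_lower (Q : ℕ) (hQ : 1 ≤ Q) :
    Real.log ((Q : ℝ) + 1) / 2 ≤
      ∑ q ∈ (Finset.Icc 1 Q).filter Squarefree, ∏ p ∈ q.primeFactors, hw p := by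
  classical
  set QQ := (Finset.Icc 1 Q).filter Squarefree with hQQ
  have hA : ∑ q ∈ QQ, (q : ℝ)⁻¹ ≤ ∑ q ∈ QQ, ∏ p ∈ q.primeFactors, hw p := by
    apply Finset.sum_le_sum
    intro q hq
    exact inv_le_prod_hw q (Finset.mem_filter.1 hq).2
  have hex : ∀ n ∈ Finset.Icc 1 Q, ∃ x : ℕ × ℕ, 0 < x.1 ∧ 0 < x.2 ∧ x.2 ^ 2 * x.1 = n ∧
      Squarefree x.1 := by
    intro n hn
    have hn' := Finset.mem_Icc.1 hn
    obtain ⟨a, b, ha, hb, hab, hs⟩ := Nat.sq_mul_squarefree_of_pos (n := n) (by omega)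
    exact ⟨(a, b), ha, hb, hab, hs⟩
  choose! g hg using hex
  set F : ℕ × ℕ → ℝ := fun x => (x.1 : ℝ)⁻¹ * ((x.2 : ℝ) ^ 2)⁻¹ with hF
  have hFg : ∀ n ∈ Finset.Icc 1 Q, F (g n) = (n : ℝ)⁻¹ := by
    intro n hn
    obtain ⟨h1, h2, h3, _⟩ := hg n hn
    have h4 : (n : ℝ) = ((g n).2 : ℝ) ^ 2 * ((g n).1 : ℝ) := by
      have h41 := congrArg (Nat.cast : ℕ → ℝ) h3
      push_cast at h41
      exact h41.symm
    rw [h4, hF]
    simp only
    rw [mul_inv]
    ring
  have hinj : Set.InjOn g (Finset.Icc 1 Q : Finset ℕ) := by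
    intro x hx y hy hxy
    have h1 := (hg x (Finset.mem_coe.1 hx)).2.2.1
    have h2 := (hg y (Finset.mem_coe.1 hy)).2.2.1
    rw [← h1, ← h2, hxy]
  have hsub : (Finset.Icc 1 Q).image g ⊆ QQ ×ˢ Finset.Ioc 0 Q := by
    intro x hx
    obtain ⟨n, hn, rfl⟩ := Finset.mem_image.1 hx
    obtain ⟨h1, h2, h3, h4⟩ := hg n hn
    have hn' := Finset.mem_Icc.1 hn
    have h5 : (g n).1 ≤ n := by
      calc (g n).1 ≤ (g n).2 ^ 2 * (g n).1 := Nat.le_mul_of_pos_left _ (pow_pos h2 2)
        _ = n := h3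
    have h6 : (g n).2 ≤ n := by
      calc (g n).2 ≤ (g n).2 ^ 2 := Nat.le_self_pow (by norm_num) _
        _ ≤ (g n).2 ^ 2 * (g n).1 := Nat.le_mul_of_pos_right _ h1
        _ = n := h3
    refine Finset.mem_product.2 ⟨Finset.mem_filter.2 ⟨Finset.mem_Icc.2 ⟨h1, by omega⟩, h4⟩,
      Finset.mem_Ioc.2 ⟨h2, by omega⟩⟩
  have hFnn : ∀ x, 0 ≤ F x := fun x => by
    rw [hF]
    positivity
  have hH : ∑ n ∈ Finset.Icc 1 Q, (n : ℝ)⁻¹ ≤
      (∑ q ∈ QQ, (q : ℝ)⁻¹) * ∑ b ∈ Finset.Ioc 0 Q, ((b : ℝ) ^ 2)⁻¹ := by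
    rw [Finset.sum_mul_sum, ← Finset.sum_product']
    calc ∑ n ∈ Finset.Icc 1 Q, (n : ℝ)⁻¹ = ∑ n ∈ Finset.Icc 1 Q, F (g n) :=
          (Finset.sum_congr rfl hFg).symm
      _ = ∑ x ∈ (Finset.Icc 1 Q).image g, F x := (Finset.sum_image hinj).symm
      _ ≤ ∑ x ∈ QQ ×ˢ Finset.Ioc 0 Q, F x :=
          Finset.sum_le_sum_of_subset_of_nonneg hsub (fun x _ _ => hFnn x)
  have hlog : Real.log ((Q : ℝ) + 1) ≤ ∑ n ∈ Finset.Icc 1 Q, (n : ℝ)⁻¹ := by
    have h1 := log_add_one_le_harmonic Q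
    rw [harmonic_eq_sum_Icc] at h1
    push_cast at h1
    exact h1
  have h2 := Vale.Agent.Lib.P001.sum_Ioc_inv_sq_le_two Q hQ
  have hAnn : 0 ≤ ∑ q ∈ QQ, (q : ℝ)⁻¹ := Finset.sum_nonneg fun q _ => by positivity
  have h3 : (∑ q ∈ QQ, (q : ℝ)⁻¹) * ∑ b ∈ Finset.Ioc 0 Q, ((b : ℝ) ^ 2)⁻¹ ≤
      (∑ q ∈ QQ, (q : ℝ)⁻¹) * 2 := by gcongr
  linarith

/-- The arithmetic large sieve applied to a window sifted by all primes up to `Q`. -/
lemma sieve_count (Q T : ℕ) (hQ : Q ^ 2 ≤ T) (hT : 1 ≤ T) (c : ℕ) :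
    (((Finset.Ico c (c + T)).filter
        (fun x => Nat.Coprime (∏ p ∈ Nat.primesBelow (Q + 1), p) x)).card : ℝ) *
      ∑ q ∈ (Finset.Icc 1 Q).filter Squarefree, ∏ p ∈ q.primeFactors, hw p ≤ 7 * T := by
  classical
  set M := ∏ p ∈ Nat.primesBelow (Q + 1), p with hM
  set W := (Finset.Ico c (c + T)).filter (fun x => Nat.Coprime M x) with hW
  set S0 := W.image (fun x => x - c) with hS0
  have hWmem : ∀ x ∈ W, c ≤ x ∧ x < c + T ∧ Nat.Coprime M x := by
    intro x hx
    have h1 := Finset.mem_filter.1 hx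
    have h2 := Finset.mem_Ico.1 h1.1
    exact ⟨h2.1, h2.2, h1.2⟩
  have hcard : S0.card = W.card := by
    apply Finset.card_image_of_injOn
    intro x hx y hy hxy
    have h1 := (hWmem x (Finset.mem_coe.1 hx)).1
    have h2 := (hWmem y (Finset.mem_coe.1 hy)).1
    simp only at hxy
    omega
  rw [← hcard]
  apply Vale.Agent.Lib.P001.large_sieve S0 T Q hQ hT
  · intro n hn
    obtain ⟨x, hx, rfl⟩ := Finset.mem_image.1 hn
    have := hWmem x hx
    omega
  · intro q hq
    have h1 := Finset.mem_filter.1 hq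
    have h2 := Finset.mem_Icc.1 h1.1
    exact ⟨by omega, h2.2, h1.2⟩
  · exact hw_nonneg
  · intro q hq p hp
    have h1 := Finset.mem_filter.1 hq
    have h2 := Finset.mem_Icc.1 h1.1
    have hpp := Nat.prime_of_mem_primeFactors hp
    have hpq : p ≤ q := Nat.le_of_dvd (by omega) (Nat.dvd_of_mem_primeFactors hp)
    have hpM : p ∣ M := Finset.dvd_prod_of_mem _ (Nat.mem_primesBelow.2 ⟨by omega, hpp⟩)
    set r := (p - c % p) % p with hr
    have hrlt : r < p := Nat.mod_lt _ hpp.pos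
    have hsum0 : (c % p + r) % p = 0 := by
      have hcp : c % p < p := Nat.mod_lt _ hpp.pos
      rcases Nat.eq_zero_or_pos (c % p) with h0 | h0
      · rw [hr, h0]
        simp
      · have h3 : r = p - c % p := by
          rw [hr]
          exact Nat.mod_eq_of_lt (by omega)
        rw [h3]
        have h4 : c % p + (p - c % p) = p := by omega
        rw [h4, Nat.mod_self]
    have himg : S0.image (· % p) ⊆ (Finset.range p).erase r := by
      intro y hy
      obtain ⟨n, hn, rfl⟩ := Finset.mem_image.1 hy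
      obtain ⟨x, hx, rfl⟩ := Finset.mem_image.1 hn
      obtain ⟨h3, h4, h5⟩ := hWmem x hx
      refine Finset.mem_erase.2 ⟨?_, Finset.mem_range.2 (Nat.mod_lt _ hpp.pos)⟩
      intro hyr
      have h6 : x % p = 0 := by
        have h7 : x = c + (x - c) := by omega
        rw [h7, Nat.add_mod, hyr]
        have h8 : (x - c) = (c + (x - c)) - c := by omega
        exact hsum0
      have h9 : p ∣ x := Nat.dvd_of_mod_eq_zero h6
      have h10 : p ∣ 1 := by
        have := Nat.dvd_gcd hpM h9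
        rwa [h5] at this
      exact hpp.one_lt.ne' (Nat.dvd_one.1 h10)
    have hcardle : (S0.image (· % p)).card ≤ p - 1 := by
      have h3 := Finset.card_le_card himg
      rw [Finset.card_erase_of_mem (Finset.mem_range.2 hrlt), Finset.card_range] at h3
      exact h3
    have hd : 1 ≤ p - 1 := by
      have := hpp.two_le
      omega
    have hdpos : (0 : ℝ) < ((p - 1 : ℕ) : ℝ) := by exact_mod_cast hd
    have hpcast : (p : ℝ) = ((p - 1 : ℕ) : ℝ) + 1 := by
      have : p = (p - 1) + 1 := by omega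
      exact_mod_cast this
    have h1hw : (0 : ℝ) ≤ 1 + hw p := by
      have := hw_nonneg p
      linarith
    calc ((S0.image (· % p)).card : ℝ) * (1 + hw p)
        ≤ ((p - 1 : ℕ) : ℝ) * (1 + hw p) := by
          gcongr
      _ = p := by
          rw [hpcast]
          unfold hw
          field_simp

/-- The window theorem of order `m log m`. -/
theorem window_log : ∃ m₀ : ℕ, ∀ S R : Finset ℕ, (∀ p ∈ S, p.Prime) → (∀ p ∈ R, p.Prime) →
    Disjoint S R → m₀ ≤ R.card →
    (∀ p : ℕ, p.Prime → (p : ℝ) * p ≤ R.card * Real.log R.card → p ∈ S ∪ R) →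
    ∀ L : ℕ, RunOn S L →
      RunOn (S ∪ R) (L + ⌊(R.card : ℝ) * Real.log R.card / 56⌋₊) := by
  refine ⟨⌈Real.exp 112⌉₊ + 16, ?_⟩
  intro S R hS hR hdisj hm hsmall L hrun
  set m := R.card with hmdef
  have hm16 : 16 ≤ m := by omega
  have hmreal : Real.exp 112 ≤ (m : ℝ) := by
    have h1 : ⌈Real.exp 112⌉₊ ≤ m := by omega
    exact (Nat.le_ceil _).trans (by exact_mod_cast h1)
  have hmpos : (0 : ℝ) < m := by
    have : 0 < m := by omega
    exact_mod_cast this
  have h16 : (16 : ℝ) ≤ m := by exact_mod_cast hm16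
  have hlogm : (112 : ℝ) ≤ Real.log m := (Real.le_log_iff_exp_le hmpos).2 hmreal
  have hlogle : Real.log m ≤ (m : ℝ) - 1 := Real.log_le_sub_one_of_pos hmpos
  set x := (m : ℝ) * Real.log m / 56 with hx
  have hx0 : 0 ≤ x := by
    rw [hx]
    have : 0 ≤ Real.log m := by linarith
    positivity
  have hx2m : 2 * (m : ℝ) ≤ x := by
    rw [hx]
    nlinarith
  set T := ⌊x⌋₊ with hT
  have hTle : (T : ℝ) ≤ x := Nat.floor_le hx0
  have hTgt : x < (T : ℝ) + 1 := Nat.lt_floor_add_one x
  have hTm : (m : ℝ) ≤ T := by linarith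
  have hTm' : m ≤ T := by exact_mod_cast hTm
  have hT1 : 1 ≤ T := by omega
  set Q := Nat.sqrt T with hQ
  have hQsq : Q ^ 2 ≤ T := Nat.sqrt_le' T
  have hQlt : T < (Q + 1) ^ 2 := Nat.lt_succ_sqrt' T
  have hQ1 : 1 ≤ Q := by
    rw [hQ]
    exact Nat.sqrt_pos.2 hT1
  have hQreal : (Q : ℝ) ^ 2 ≤ T := by exact_mod_cast hQsq
  have h7Q : 7 * (Q : ℝ) ≤ m := by
    by_contra hcon
    push Not at hcon
    have h1 : (m : ℝ) ^ 2 < (7 * (Q : ℝ)) ^ 2 := by
      apply pow_lt_pow_left₀ hcon hmpos.le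
      norm_num
    have h2 : (T : ℝ) ≤ (m : ℝ) * (m : ℝ) / 56 := by
      refine hTle.trans ?_
      rw [hx]
      have : (m : ℝ) * Real.log m ≤ (m : ℝ) * (m : ℝ) := by
        apply mul_le_mul_of_nonneg_left _ hmpos.le
        linarith
      linarith
    nlinarith
  set P := Nat.primesBelow (Q + 1) with hPdef
  have hPp : ∀ p ∈ P, p.Prime := fun p hp => Nat.prime_of_mem_primesBelow hp
  have hPsub : P ⊆ S ∪ R := by
    intro p hp
    apply hsmall p (hPp p hp)
    have h1 : p < Q + 1 := Nat.lt_of_mem_primesBelow hp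
    have h2 : p * p ≤ T := by
      have h3 : p ≤ Q := by omega
      exact Nat.le_sqrt.1 h3
    have h3 : (p : ℝ) * p ≤ T := by exact_mod_cast h2
    have h4 : x ≤ (m : ℝ) * Real.log m := by
      rw [hx]
      have : 0 ≤ (m : ℝ) * Real.log m := by
        have : 0 ≤ Real.log m := by linarith
        positivity
      linarith
    linarith
  have hPcard : (P.card : ℝ) ≤ (Q : ℝ) + 1 := by
    have h1 : P.card ≤ (Finset.range (Q + 1)).card := Finset.card_filter_le _ _
    rw [Finset.card_range] at h1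
    exact_mod_cast h1
  have hmain : ∀ c : ℕ, ((Finset.Ico c (c + T)).filter
      (fun x => Nat.Coprime (∏ p ∈ P, p) x)).card + P.card ≤ R.card := by
    intro c
    have h1 := sieve_count Q T hQsq hT1 c
    have h2 := sum_sqfree_lower Q hQ1
    set U := ((Finset.Ico c (c + T)).filter
      (fun x => Nat.Coprime (∏ p ∈ P, p) x)).card with hU
    have hU0 : (0 : ℝ) ≤ U := by positivity
    have h3 : Real.log m ≤ 2 * Real.log ((Q : ℝ) + 1) := by
      have h4 : (m : ℝ) ≤ ((Q : ℝ) + 1) ^ 2 := by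
        have h5 : (T : ℝ) ≤ ((Q : ℝ) + 1) ^ 2 := by
          have : T ≤ (Q + 1) ^ 2 := hQlt.le
          exact_mod_cast this
        linarith
      have h6 := Real.log_le_log hmpos h4
      rw [Real.log_pow] at h6
      exact_mod_cast h6
    have h4 : (U : ℝ) * (Real.log m / 4) ≤ 7 * T := by
      refine le_trans ?_ h1
      apply mul_le_mul_of_nonneg_left _ hU0
      linarith
    have h5 : (U : ℝ) * (Real.log m / 4) ≤ (m : ℝ) * Real.log m / 8 := by
      have h6 : 7 * (T : ℝ) ≤ 7 * x := by linarith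
      have h7 : 7 * x = (m : ℝ) * Real.log m / 8 := by
        rw [hx]
        ring
      linarith
    have hlogpos : 0 < Real.log m := by linarith
    have h6 : (U : ℝ) ≤ (m : ℝ) / 2 := by
      by_contra hcon
      push Not at hcon
      have h7 : (m : ℝ) / 2 * (Real.log m / 4) < (U : ℝ) * (Real.log m / 4) := by
        apply mul_lt_mul_of_pos_right hcon
        positivity
      have h8 : (m : ℝ) / 2 * (Real.log m / 4) = (m : ℝ) * Real.log m / 8 := by ring
      linarith
    have h7 : ((U + P.card : ℕ) : ℝ) ≤ m := by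
      push_cast
      linarith
    exact_mod_cast h7
  exact window_core2 S R P hS hR hPp hdisj hPsub T hmain L hrun

/-- The uniform window increment for runs, of order `m log m`. -/
theorem run_increment_log : ∃ m₀ : ℕ, ∀ m, m₀ ≤ m → ∀ k L : ℕ, HasRun k L →
    HasRun (k + m) (L + ⌊(m : ℝ) * Real.log m / 56⌋₊) := by
  obtain ⟨m₀, hm₀⟩ := window_log
  refine ⟨m₀ + 2, ?_⟩
  rintro m hm k L ⟨S, hS, hcard, hrun⟩
  have hmpos : (0 : ℝ) < m := by
    have : 0 < m := by omega
    exact_mod_cast this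
  have hm1 : (1 : ℝ) ≤ m := by
    have : 1 ≤ m := by omega
    exact_mod_cast this
  have hlogle : Real.log m ≤ (m : ℝ) - 1 := Real.log_le_sub_one_of_pos hmpos
  have hlog0 : 0 ≤ Real.log m := Real.log_nonneg hm1
  set n := Nat.sqrt ⌊(m : ℝ) * Real.log m⌋₊ with hn
  have hn1 : n + 1 ≤ m := by
    have h1 : n ^ 2 ≤ ⌊(m : ℝ) * Real.log m⌋₊ := Nat.sqrt_le' _
    have h2 : ((n ^ 2 : ℕ) : ℝ) ≤ (m : ℝ) * Real.log m :=
      (Nat.cast_le.2 h1).trans (Nat.floor_le (by positivity))
    push_cast at h2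
    by_contra hcon
    push Not at hcon
    have h3 : m ≤ n := by omega
    have h4 : (m : ℝ) ≤ n := by exact_mod_cast h3
    nlinarith
  set P' := Nat.primesBelow (n + 1) \ S with hP'
  have hP'card : P'.card ≤ m := by
    have h1 : P'.card ≤ (Nat.primesBelow (n + 1)).card := Finset.card_le_card Finset.sdiff_subset
    have h2 : (Nat.primesBelow (n + 1)).card ≤ (Finset.range (n + 1)).card :=
      Finset.card_filter_le _ _
    simp only [Finset.card_range] at h2
    omega
  have hinf : ({p : ℕ | p.Prime} \ ((S ∪ P' : Finset ℕ) : Set ℕ)).Infinite :=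
    Nat.infinite_setOfPred_prime.sdiff (Finset.finite_toSet _)
  obtain ⟨F, hF, hFcard⟩ := hinf.exists_subset_card_eq (m - P'.card)
  have hFp : ∀ p ∈ F, p.Prime ∧ p ∉ S ∪ P' := by
    intro p hp
    have := hF (Finset.mem_coe.2 hp)
    exact ⟨this.1, fun h => this.2 (Finset.mem_coe.2 h)⟩
  set R := P' ∪ F with hRdef
  have hdisjPF : Disjoint P' F := by
    rw [Finset.disjoint_left]
    intro p hp hpF
    exact (hFp p hpF).2 (Finset.mem_union_right _ hp)
  have hRcard : R.card = m := by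
    rw [hRdef, Finset.card_union_of_disjoint hdisjPF, hFcard]
    omega
  have hRp : ∀ p ∈ R, p.Prime := by
    intro p hp
    rcases Finset.mem_union.1 hp with h | h
    · exact Nat.prime_of_mem_primesBelow (Finset.mem_sdiff.1 h).1
    · exact (hFp p h).1
  have hdisj : Disjoint S R := by
    rw [Finset.disjoint_left]
    intro p hpS hpR
    rcases Finset.mem_union.1 hpR with h | h
    · exact (Finset.mem_sdiff.1 h).2 hpS
    · exact (hFp p h).2 (Finset.mem_union_left _ hpS)
  have hsmall : ∀ p : ℕ, p.Prime → (p : ℝ) * p ≤ R.card * Real.log R.card → p ∈ S ∪ R := by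
    intro p hp hple
    rw [hRcard] at hple
    by_cases hpS : p ∈ S
    · exact Finset.mem_union_left _ hpS
    · refine Finset.mem_union_right _ (Finset.mem_union_left _ (Finset.mem_sdiff.2 ⟨?_, hpS⟩))
      have h1 : p * p ≤ ⌊(m : ℝ) * Real.log m⌋₊ := by
        apply Nat.le_floor
        push_cast
        exact hple
      have h2 : p ≤ n := Nat.le_sqrt.2 h1
      exact Nat.mem_primesBelow.2 ⟨by omega, hp⟩
  have hmain := hm₀ S R hS hRp hdisj (by rw [hRcard]; omega) hsmall L hrun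
  rw [hRcard] at hmain
  refine ⟨S ∪ R, ?_, ?_, hmain⟩
  · intro p hp
    rcases Finset.mem_union.1 hp with h | h
    · exact hS p h
    · exact hRp p h
  · calc (S ∪ R).card ≤ S.card + R.card := Finset.card_union_le _ _
      _ ≤ k + m := by omega

/-- The uniform window increment for the first primes, of order `m log m`. -/
theorem primorial_increment_log : ∃ m₀ : ℕ, ∀ m, m₀ ≤ m → ∀ k L : ℕ, RunOn (firstPrimes k) L →
    RunOn (firstPrimes (k + m)) (L + ⌊(m : ℝ) * Real.log m / 56⌋₊) := by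
  obtain ⟨m₀, hm₀⟩ := window_log
  refine ⟨m₀ + 2, ?_⟩
  intro m hm k L hrun
  have hmpos : (0 : ℝ) < m := by
    have : 0 < m := by omega
    exact_mod_cast this
  set R := (Finset.range m).image (fun i => Nat.nth Nat.Prime (k + i)) with hRdef
  have hRcard : R.card = m := by
    rw [hRdef, Finset.card_image_of_injective, Finset.card_range]
    intro x y hxy
    have := nth_prime_injective hxy
    omega
  have hSp : ∀ p ∈ firstPrimes k, p.Prime := by
    intro p hp
    obtain ⟨i, _, rfl⟩ := Finset.mem_image.1 hp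
    exact Nat.prime_nth_prime i
  have hRp : ∀ p ∈ R, p.Prime := by
    intro p hp
    obtain ⟨i, _, rfl⟩ := Finset.mem_image.1 hp
    exact Nat.prime_nth_prime _
  have hdisj : Disjoint (firstPrimes k) R := by
    rw [Finset.disjoint_left]
    intro p hp hq
    obtain ⟨i, hi, rfl⟩ := Finset.mem_image.1 hp
    obtain ⟨j, _, hj⟩ := Finset.mem_image.1 hq
    have := nth_prime_injective hj
    have hi' := Finset.mem_range.1 hi
    omega
  have hunion : firstPrimes k ∪ R = firstPrimes (k + m) := by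
    ext p
    simp only [firstPrimes, hRdef, Finset.mem_union, Finset.mem_image, Finset.mem_range]
    constructor
    · rintro (⟨i, hi, rfl⟩ | ⟨i, hi, rfl⟩)
      · exact ⟨i, by omega, rfl⟩
      · exact ⟨k + i, by omega, rfl⟩
    · rintro ⟨i, hi, rfl⟩
      by_cases h : i < k
      · exact Or.inl ⟨i, h, rfl⟩
      · exact Or.inr ⟨i - k, by omega, by
          show Nat.nth Nat.Prime (k + (i - k)) = Nat.nth Nat.Prime i
          congr 1
          omega⟩
  have hsmall : ∀ p : ℕ, p.Prime → (p : ℝ) * p ≤ R.card * Real.log R.card →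
      p ∈ firstPrimes k ∪ R := by
    intro p hp hple
    rw [hRcard] at hple
    rw [hunion]
    have h1 : Real.log m ≤ (m : ℝ) - 1 := Real.log_le_sub_one_of_pos hmpos
    have h3 : p + 1 ≤ m := by
      by_contra hcon
      push Not at hcon
      have h4 : m ≤ p := by omega
      have h5 : (m : ℝ) ≤ p := by exact_mod_cast h4
      nlinarith
    have h4 : Nat.count Nat.Prime p ≤ p := Nat.count_le _
    refine Finset.mem_image.2 ⟨Nat.count Nat.Prime p, Finset.mem_range.2 (by omega), ?_⟩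
    exact Nat.nth_count hp
  have hmain := hm₀ _ R hSp hRp hdisj (by rw [hRcard]; omega) hsmall L hrun
  rwa [hunion, hRcard] at hmain

end Vale.Agent.Lib.P013
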