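import Mathlib
import Vale.Agent.Lib.P013.RunsLog

/-!
From arbitrary sets of primes to the first primes: a run covered by `k` primes is also covered by
the first `k + m` primes, once `m` is large enough.
-/

namespace Vale.Agent.Lib.P013

open Finset

lemma card_firstPrimes (n : ℕ) : (firstPrimes n).card = n := by
  unfold firstPrimes
  rw [Finset.card_image_of_injective _ nth_prime_injective, Finset.card_range]

lemma prime_of_mem_firstPrimes {n p : ℕ} (hp : p ∈ firstPrimes n) : p.Prime := by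
  obtain ⟨i, _, rfl⟩ := Finset.mem_image.1 hp
  exact Nat.prime_nth_prime i

lemma le_of_not_mem_firstPrimes {n q : ℕ} (hq : q.Prime) (h : q ∉ firstPrimes n) :
    Nat.nth Nat.Prime n ≤ q := by
  have h1 : n ≤ Nat.count Nat.Prime q := by
    by_contra hcon
    push Not at hcon
    exact h (Finset.mem_image.2 ⟨_, Finset.mem_range.2 hcon, Nat.nth_count hq⟩)
  calc Nat.nth Nat.Prime n ≤ Nat.nth Nat.Prime (Nat.count Nat.Prime q) :=
        Nat.nth_monotone Nat.infinite_setOfPred_prime h1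
    _ = q := Nat.nth_count hq

/-- A run covered by `k` primes is covered by the first `k + m` primes when `m` is large. -/
theorem bridge (k m L : ℕ) (h : HasRun k L)
    (hm : k * (L / Nat.nth Nat.Prime (k + m) + 1) ≤ m) : RunOn (firstPrimes (k + m)) L := by
  classical
  obtain ⟨S, hS, hcard, a, hrun⟩ := h
  set F := firstPrimes (k + m) with hF
  set S' := S ∩ F with hS'
  set B := S \ F with hB
  set R := F \ S with hR
  set N := ∏ p ∈ S', p with hN
  have hS'p : ∀ p ∈ S', p.Prime := fun p hp => hS p (Finset.mem_inter.1 hp).1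
  have hRp : ∀ q ∈ R, q.Prime := fun q hq => prime_of_mem_firstPrimes (Finset.mem_sdiff.1 hq).1
  have hRN : ∀ q ∈ R, ¬ q ∣ N := by
    intro q hq hdvd
    have hq' := Finset.mem_sdiff.1 hq
    obtain ⟨r, hr, hqr⟩ := (Prime.dvd_finsetProd_iff (hRp q hq).prime _).1 hdvd
    have hqe : q = r := (Nat.prime_dvd_prime_iff_eq (hRp q hq) (hS'p r hr)).1 hqr
    subst hqe
    exact hq'.2 (Finset.mem_inter.1 hr).1
  have hRcard : m ≤ R.card := by
    have h1 : F.card - S.card ≤ R.card := Finset.le_card_sdiff S F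
    have h2 : F.card = k + m := card_firstPrimes _
    omega
  have hSpos : 0 < ∏ p ∈ S, p := Finset.prod_pos fun p hp => (hS p hp).pos
  obtain ⟨b, hb⟩ := exists_nat_rep a (∏ p ∈ S, p) hSpos
  set U := (Finset.range L).filter (fun i : ℕ => ∀ p ∈ S', ¬ (p : ℤ) ∣ a + (i : ℤ)) with hU
  set P := Nat.nth Nat.Prime (k + m) with hP
  have hUsub : U.image (fun i => b + i) ⊆
      B.biUnion (fun q => (Finset.Ico b (b + L)).filter (fun x => q ∣ x)) := by
    intro x hx
    obtain ⟨i, hi, rfl⟩ := Finset.mem_image.1 hx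
    have hi' := Finset.mem_filter.1 hi
    have hiL := Finset.mem_range.1 hi'.1
    obtain ⟨q, hq, hdvd⟩ := hrun i hiL
    have hqB : q ∈ B := by
      refine Finset.mem_sdiff.2 ⟨hq, fun hqF => ?_⟩
      exact hi'.2 q (Finset.mem_inter.2 ⟨hq, hqF⟩) hdvd
    have h1 : (q : ℤ) ∣ a - b := by
      refine dvd_trans ?_ hb
      have : q ∣ ∏ p ∈ S, p := Finset.dvd_prod_of_mem _ hq
      exact_mod_cast this
    have h2 : (q : ℤ) ∣ (b : ℤ) + i := by
      have h3 : (b : ℤ) + i = (a + i) - (a - b) := by ring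
      rw [h3]
      exact dvd_sub hdvd h1
    have h4 : q ∣ b + i := by exact_mod_cast h2
    exact Finset.mem_biUnion.2 ⟨q, hqB, Finset.mem_filter.2 ⟨Finset.mem_Ico.2 ⟨by omega, by omega⟩, h4⟩⟩
  have hUcard : U.card ≤ R.card := by
    have h1 : U.card = (U.image (fun i => b + i)).card :=
      (Finset.card_image_of_injective _ (fun x y hxy => Nat.add_left_cancel hxy)).symm
    have h2 : (U.image (fun i => b + i)).card ≤ ∑ q ∈ B, (L / P + 1) := by
      calc (U.image (fun i => b + i)).card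
          ≤ (B.biUnion (fun q => (Finset.Ico b (b + L)).filter (fun x => q ∣ x))).card :=
            Finset.card_le_card hUsub
        _ ≤ ∑ q ∈ B, ((Finset.Ico b (b + L)).filter (fun x => q ∣ x)).card :=
            Finset.card_biUnion_le
        _ ≤ ∑ q ∈ B, (L / P + 1) := by
            apply Finset.sum_le_sum
            intro q hq
            have hq' := Finset.mem_sdiff.1 hq
            have hqp := hS q hq'.1
            have h3 := card_multiples_le q b L hqp.pos
            have h4 : P ≤ q := le_of_not_mem_firstPrimes hqp hq'.2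
            have hPpos : 0 < P := (Nat.prime_nth_prime _).pos
            have h5 : L / q ≤ L / P := Nat.div_le_div_left h4 hPpos
            omega
    rw [Finset.sum_const, smul_eq_mul] at h2
    have hBcard : B.card ≤ k := (Finset.card_le_card Finset.sdiff_subset).trans hcard
    have h6 : B.card * (L / P + 1) ≤ k * (L / P + 1) := Nat.mul_le_mul_right _ hBcard
    omega
  obtain ⟨a', ha', hcov⟩ := cover_prescribed N a U R hRp hRN hUcard
  refine ⟨a', fun i hi => ?_⟩
  by_cases hiU : i ∈ U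
  · obtain ⟨q, hq, hdvd⟩ := hcov i hiU
    exact ⟨q, (Finset.mem_sdiff.1 hq).1, hdvd⟩
  · have h1 : ∃ p ∈ S', (p : ℤ) ∣ a + i := by
      by_contra hcon
      push Not at hcon
      exact hiU (Finset.mem_filter.2 ⟨Finset.mem_range.2 hi, hcon⟩)
    obtain ⟨p, hp, hdvd⟩ := h1
    refine ⟨p, (Finset.mem_inter.1 hp).2, ?_⟩
    have h9 : (p : ℤ) ∣ a' - a := by
      refine dvd_trans ?_ ha'
      have : p ∣ N := Finset.dvd_prod_of_mem _ hp
      exact_mod_cast this
    have h10 : a' + i = (a' - a) + (a + i) := by ring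
    rw [h10]
    exact dvd_add h9 hdvd

/-- A polynomial bound for the first primes gives one for all sets of primes. -/
theorem exponent_transfer (α C : ℝ) (hα1 : 1 ≤ α) (hα2 : α < 2) (hC : 0 ≤ C)
    (hbd : ∀ k : ℕ, 1 ≤ k → ∀ L : ℕ, RunOn (firstPrimes k) L → (L : ℝ) ≤ C * (k : ℝ) ^ α) :
    ∃ C' : ℝ, ∀ k : ℕ, 1 ≤ k → ∀ L : ℕ, HasRun k L →
      (L : ℝ) ≤ C' * (k : ℝ) ^ (α / (2 - α)) := by
  have h2α : 0 < 2 - α := by linarith
  set γ := 2 / (2 - α) with hγ
  set β := α / (2 - α) with hβ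
  have hβ1 : 1 ≤ β := by
    rw [hβ, le_div_iff₀ h2α]
    linarith
  have hγ0 : 0 < γ := by
    rw [hγ]
    positivity
  set D := C * (2 : ℝ) ^ α with hD
  have hD0 : 0 ≤ D := by
    rw [hD]
    positivity
  refine ⟨9 + D ^ γ, ?_⟩
  intro k hk L hrun
  have hk1 : (1 : ℝ) ≤ k := by exact_mod_cast hk
  have hk0 : (0 : ℝ) < k := by linarith
  have hkβ : (k : ℝ) ≤ (k : ℝ) ^ β := Real.self_le_rpow_of_one_le hk1 hβ1
  have hkβ0 : 0 ≤ (k : ℝ) ^ β := by positivity
  have hDγ0 : 0 ≤ D ^ γ := by positivity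
  have hL0 : (0 : ℝ) ≤ L := by positivity
  set x := Real.sqrt ((k : ℝ) * L) with hx
  have hx0 : 0 ≤ x := Real.sqrt_nonneg _
  have hxsq : x * x = (k : ℝ) * L := Real.mul_self_sqrt (by positivity)
  set s := ⌈x⌉₊ with hs
  have hsx : x ≤ s := Nat.le_ceil x
  have hsx' : (s : ℝ) < x + 1 := Nat.ceil_lt_add_one hx0
  have hskL : k * L ≤ s * s := by
    have h1 : (k : ℝ) * L ≤ (s : ℝ) * s := by
      rw [← hxsq]
      exact mul_self_le_mul_self hx0 hsx
    exact_mod_cast h1
  set m := k + s with hm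
  have hbridge : k * (L / Nat.nth Nat.Prime (k + m) + 1) ≤ m := by
    set P := Nat.nth Nat.Prime (k + m) with hP
    have hPm : m ≤ P := by
      have := Nat.add_two_le_nth_prime (k + m)
      omega
    have hmpos : 0 < m := by omega
    have h1 : (L / P) * m ≤ L := by
      calc (L / P) * m ≤ (L / P) * P := Nat.mul_le_mul_left _ hPm
        _ ≤ L := Nat.div_mul_le_self _ _
    have h2 : m * (k * (L / P)) ≤ m * s := by
      calc m * (k * (L / P)) = k * ((L / P) * m) := by ring
        _ ≤ k * L := Nat.mul_le_mul_left _ h1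
        _ ≤ s * s := hskL
        _ ≤ m * s := Nat.mul_le_mul_right _ (by omega)
    have h3 : k * (L / P) ≤ s := Nat.le_of_mul_le_mul_left h2 hmpos
    calc k * (L / P + 1) = k * (L / P) + k := by ring
      _ ≤ m := by omega
  have hrun2 := bridge k m L hrun hbridge
  have hbound := hbd (k + m) (by omega) L hrun2
  have hkm : ((k + m : ℕ) : ℝ) ≤ 3 * (k : ℝ) + x := by
    have : ((k + m : ℕ) : ℝ) = 2 * (k : ℝ) + s := by
      rw [hm]
      push_cast
      ring
    rw [this]
    linarith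
  have hαpos : 0 < α := by linarith
  by_cases hcase : x ≤ 3 * (k : ℝ)
  · have h1 : (L : ℝ) ≤ 9 * (k : ℝ) := by
      have h2 : (k : ℝ) * L ≤ (k : ℝ) * (9 * k) := by
        rw [← hxsq]
        nlinarith
      exact le_of_mul_le_mul_left h2 hk0
    calc (L : ℝ) ≤ 9 * (k : ℝ) := h1
      _ ≤ 9 * (k : ℝ) ^ β := by gcongr
      _ ≤ (9 + D ^ γ) * (k : ℝ) ^ β := by nlinarith
  · push Not at hcase
    have hx1 : 3 * (k : ℝ) + x ≤ 2 * x := by linarith
    have hxpos : 0 < x := by linarith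
    have hLpos : (0 : ℝ) < L := by
      rcases hL0.lt_or_eq with h | h
      · exact h
      · exfalso
        have : (k : ℝ) * L = 0 := by rw [← h]; ring
        rw [← hxsq] at this
        nlinarith
    have h1 : (L : ℝ) ≤ C * (2 * x) ^ α := by
      refine hbound.trans ?_
      gcongr
      exact hkm.trans hx1
    have hxpow : x ^ α = (k : ℝ) ^ (α / 2) * (L : ℝ) ^ (α / 2) := by
      rw [hx, Real.sqrt_eq_rpow, ← Real.rpow_mul (by positivity),
        Real.mul_rpow hk0.le hL0]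
      congr 2 <;> ring
    have h2 : (L : ℝ) ≤ D * (k : ℝ) ^ (α / 2) * (L : ℝ) ^ (α / 2) := by
      calc (L : ℝ) ≤ C * (2 * x) ^ α := h1
        _ = C * ((2 : ℝ) ^ α * x ^ α) := by rw [Real.mul_rpow (by norm_num) hx0]
        _ = D * (k : ℝ) ^ (α / 2) * (L : ℝ) ^ (α / 2) := by rw [hxpow, hD]; ring
    have hLa : (L : ℝ) = (L : ℝ) ^ (1 - α / 2) * (L : ℝ) ^ (α / 2) := by
      rw [← Real.rpow_add hLpos]
      have : 1 - α / 2 + α / 2 = 1 := by ring
      rw [this, Real.rpow_one]
    have hLa0 : 0 < (L : ℝ) ^ (α / 2) := Real.rpow_pos_of_pos hLpos _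
    have h3 : (L : ℝ) ^ (1 - α / 2) ≤ D * (k : ℝ) ^ (α / 2) := by
      have h4 : (L : ℝ) ^ (1 - α / 2) * (L : ℝ) ^ (α / 2) ≤
          D * (k : ℝ) ^ (α / 2) * (L : ℝ) ^ (α / 2) := by
        rw [← hLa]
        exact h2
      exact le_of_mul_le_mul_right h4 hLa0
    have h5 : ((L : ℝ) ^ (1 - α / 2)) ^ γ ≤ (D * (k : ℝ) ^ (α / 2)) ^ γ :=
      Real.rpow_le_rpow (by positivity) h3 hγ0.le
    have h6 : ((L : ℝ) ^ (1 - α / 2)) ^ γ = L := by
      rw [← Real.rpow_mul hL0]
      have : (1 - α / 2) * γ = 1 := by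
        rw [hγ]
        field_simp
      rw [this, Real.rpow_one]
    have h7 : (D * (k : ℝ) ^ (α / 2)) ^ γ = D ^ γ * (k : ℝ) ^ β := by
      rw [Real.mul_rpow hD0 (by positivity), ← Real.rpow_mul hk0.le]
      congr 2
      rw [hγ, hβ]
      field_simp
    rw [h6, h7] at h5
    calc (L : ℝ) ≤ D ^ γ * (k : ℝ) ^ β := h5
      _ ≤ (9 + D ^ γ) * (k : ℝ) ^ β := by nlinarith

/-- Vaughan's estimate for all sets of primes is equivalent to the same estimate for the first
primes. -/
theorem vaughan_iff :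
    (∀ ε : ℝ, 0 < ε → ∃ C : ℝ, ∀ k : ℕ, 1 ≤ k → ∀ L : ℕ, RunOn (firstPrimes k) L →
      (L : ℝ) ≤ C * (k : ℝ) ^ (1 + ε)) ↔
    (∀ ε : ℝ, 0 < ε → ∃ C : ℝ, ∀ k : ℕ, 1 ≤ k → ∀ L : ℕ, HasRun k L →
      (L : ℝ) ≤ C * (k : ℝ) ^ (1 + ε)) := by
  constructor
  · intro h ε hε
    set η := ε / (2 + ε) with hη
    have hε2 : 0 < 2 + ε := by linarith
    have hη0 : 0 < η := by
      rw [hη]
      positivity
    have hη1 : η < 1 := by
      rw [hη, div_lt_one hε2]
      linarith
    obtain ⟨C, hC⟩ := h η hη0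
    have hbd : ∀ k : ℕ, 1 ≤ k → ∀ L : ℕ, RunOn (firstPrimes k) L →
        (L : ℝ) ≤ max C 0 * (k : ℝ) ^ (1 + η) := by
      intro k hk L hL
      refine (hC k hk L hL).trans ?_
      gcongr
      exact le_max_left _ _
    obtain ⟨C', hC'⟩ := exponent_transfer (1 + η) (max C 0) (by linarith) (by linarith)
      (le_max_right _ _) hbd
    refine ⟨C', ?_⟩
    intro k hk L hL
    have h1 := hC' k hk L hL
    have h2 : (1 + η) / (2 - (1 + η)) = 1 + ε := by
      have h3 : 2 - (1 + η) = 1 - η := by ring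
      have h4 : (1 : ℝ) - η ≠ 0 := by linarith
      rw [h3, div_eq_iff h4, hη]
      field_simp
      ring
    rwa [h2] at h1
  · intro h ε hε
    obtain ⟨C, hC⟩ := h ε hε
    refine ⟨C, fun k hk L hL => hC k hk L ⟨firstPrimes k, ?_, ?_, hL⟩⟩
    · exact fun p hp => prime_of_mem_firstPrimes hp
    · rw [card_firstPrimes]

end Vale.Agent.Lib.P013
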