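import Mathlib
import Vale.Agent.Lib.P013.Bridge

/-!
Transfer of a bound `k (log k)^A` from the first primes to all sets of primes.
-/

namespace Vale.Agent.Lib.P013

open Finset

/-- The common step: `L ≤ D x (log k)^A` with `x = √(k L)` gives `L ≤ D² k (log k)^(2A)`. -/
lemma square_step (D Y k L : ℝ) (hD : 0 ≤ D) (hY : 0 ≤ Y) (hk : 0 < k) (hL : 0 ≤ L)
    (h : L ≤ D * Real.sqrt (k * L) * Y) : L ≤ D ^ 2 * k * Y ^ 2 := by
  rcases hL.lt_or_eq with hLpos | hL0
  · have hs : Real.sqrt (k * L) = Real.sqrt k * Real.sqrt L := Real.sqrt_mul hk.le L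
    have hsL : 0 < Real.sqrt L := Real.sqrt_pos.2 hLpos
    have hLs : L = Real.sqrt L * Real.sqrt L := (Real.mul_self_sqrt hL).symm
    have hks : k = Real.sqrt k * Real.sqrt k := (Real.mul_self_sqrt hk.le).symm
    have h1 : Real.sqrt L * Real.sqrt L ≤ (D * Real.sqrt k * Y) * Real.sqrt L := by
      rw [← hLs]
      calc L ≤ D * Real.sqrt (k * L) * Y := h
        _ = (D * Real.sqrt k * Y) * Real.sqrt L := by rw [hs]; ring
    have h2 : Real.sqrt L ≤ D * Real.sqrt k * Y := le_of_mul_le_mul_right h1 hsL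
    calc L = Real.sqrt L * Real.sqrt L := hLs
      _ ≤ (D * Real.sqrt k * Y) * (D * Real.sqrt k * Y) := mul_self_le_mul_self hsL.le h2
      _ = D ^ 2 * (Real.sqrt k * Real.sqrt k) * Y ^ 2 := by ring
      _ = D ^ 2 * k * Y ^ 2 := by rw [← hks]
  · rw [← hL0]
    positivity

/-- A bound `k (log k)^A` for the first primes gives a polynomial bound for all prime sets. -/
lemma poly_of_polylog (A C : ℝ) (hA : 0 < A) (hC : 0 ≤ C)
    (hbd : ∀ k : ℕ, 2 ≤ k → ∀ L : ℕ, RunOn (firstPrimes k) L →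
      (L : ℝ) ≤ C * k * Real.log k ^ A) :
    ∃ C3 : ℝ, ∀ k : ℕ, 1 ≤ k → ∀ L : ℕ, HasRun k L → (L : ℝ) ≤ C3 * (k : ℝ) ^ (3 : ℝ) := by
  -- a first polynomial bound
  set E := (2 * A) ^ A with hE
  have hE0 : 0 ≤ E := by rw [hE]; positivity
  have hlogpow : ∀ x : ℝ, 1 ≤ x → Real.log x ^ A ≤ E * x ^ (1 / 2 : ℝ) := by
    intro x hx
    have hx0 : 0 ≤ x := by linarith
    have hε : 0 < 1 / (2 * A) := by positivity
    have h1 := Real.log_le_rpow_div hx0 hε
    have h2 : 0 ≤ Real.log x := Real.log_nonneg hx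
    have h3 : Real.log x ^ A ≤ (x ^ (1 / (2 * A)) / (1 / (2 * A))) ^ A :=
      Real.rpow_le_rpow h2 h1 hA.le
    have h4 : (x ^ (1 / (2 * A)) / (1 / (2 * A))) ^ A = E * x ^ (1 / 2 : ℝ) := by
      have h5 : x ^ (1 / (2 * A)) / (1 / (2 * A)) = (2 * A) * x ^ (1 / (2 * A)) := by
        field_simp
      rw [h5, Real.mul_rpow (by positivity) (by positivity), ← Real.rpow_mul hx0]
      congr 2
      field_simp
    rw [← h4]
    exact h3
  have hbd0 : ∀ k : ℕ, 1 ≤ k → ∀ L : ℕ, RunOn (firstPrimes k) L →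
      (L : ℝ) ≤ (2 + C * E) * (k : ℝ) ^ (3 / 2 : ℝ) := by
    intro k hk L hrun
    have hk1 : (1 : ℝ) ≤ k := by exact_mod_cast hk
    have hk0 : (0 : ℝ) < k := by linarith
    have hpow : (k : ℝ) ^ (3 / 2 : ℝ) = k * (k : ℝ) ^ (1 / 2 : ℝ) := by
      rw [show (3 / 2 : ℝ) = 1 + 1 / 2 by norm_num, Real.rpow_add hk0, Real.rpow_one]
    rcases Nat.lt_or_ge k 2 with hk2 | hk2
    · have hk1' : k = 1 := by omega
      subst hk1'
      obtain ⟨a, ha⟩ := hrun
      -- one prime: the prime is `2`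
      have hL : L ≤ 1 := by
        by_contra hcon
        push Not at hcon
        obtain ⟨p, hp, h0⟩ := ha 0 (by omega)
        obtain ⟨q, hq, h1⟩ := ha 1 (by omega)
        have hpp : p = Nat.nth Nat.Prime 0 := by
          simpa [firstPrimes] using hp
        have hqq : q = Nat.nth Nat.Prime 0 := by
          simpa [firstPrimes] using hq
        have hpe : p = q := hpp.trans hqq.symm
        subst hpe
        have hp' : p.Prime := prime_of_mem_firstPrimes hp
        have h2 : (p : ℤ) ∣ 1 := by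
          have h3 : (1 : ℤ) = (a + ((1 : ℕ) : ℤ)) - (a + ((0 : ℕ) : ℤ)) := by
            push_cast
            ring
          rw [h3]
          exact dvd_sub h1 h0
        have h4 : p ∣ 1 := by exact_mod_cast h2
        exact hp'.one_lt.ne' (Nat.dvd_one.1 h4)
      have hL' : (L : ℝ) ≤ 1 := by exact_mod_cast hL
      have hCE : 0 ≤ C * E := by positivity
      norm_num
      linarith
    · have h1 := hbd k hk2 L hrun
      have h2 := hlogpow k hk1
      have hrp : 0 ≤ (k : ℝ) ^ (1 / 2 : ℝ) := by positivity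
      have hpow1 : (1 : ℝ) ≤ (k : ℝ) ^ (1 / 2 : ℝ) := Real.one_le_rpow hk1 (by norm_num)
      calc (L : ℝ) ≤ C * k * Real.log k ^ A := h1
        _ ≤ C * k * (E * (k : ℝ) ^ (1 / 2 : ℝ)) := by gcongr
        _ = (C * E) * (k : ℝ) ^ (3 / 2 : ℝ) := by rw [hpow]; ring
        _ ≤ (2 + C * E) * (k : ℝ) ^ (3 / 2 : ℝ) := by
          have : 0 ≤ (k : ℝ) ^ (3 / 2 : ℝ) := by positivity
          nlinarith
  obtain ⟨C3, hC3⟩ := exponent_transfer (3 / 2) (2 + C * E) (by norm_num) (by norm_num)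
    (by positivity) hbd0
  have hexp : (3 / 2 : ℝ) / (2 - 3 / 2) = 3 := by norm_num
  rw [hexp] at hC3
  exact ⟨C3, hC3⟩

/-- One application of the bridge with `m = k + ⌈√(k L)⌉`. -/
lemma bridge_step (k L : ℕ) (hk : 1 ≤ k) (hrun : HasRun k L) :
    ∃ K : ℕ, k ≤ K ∧ RunOn (firstPrimes K) L ∧
      (K : ℝ) ≤ 3 * (k : ℝ) + Real.sqrt ((k : ℝ) * L) := by
  have hL0 : (0 : ℝ) ≤ L := by positivity
  set x := Real.sqrt ((k : ℝ) * L) with hx
  have hx0 : 0 ≤ x := Real.sqrt_nonneg _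
  have hxsq : x * x = (k : ℝ) * L := Real.mul_self_sqrt (by positivity)
  set s := ⌈x⌉₊ with hs
  have hsx : x ≤ s := Nat.le_ceil x
  have hsx' : (s : ℝ) < x + 1 := Nat.ceil_lt_add_one hx0
  have hskL : k * L ≤ s * s := by
    have h1 : (k : ℝ) * L ≤ (s : ℝ) * s := by
      rw [← hxsq]
      exact mul_self_le_mul_self hx0 hsx
    exact_mod_cast h1
  set m := k + s with hm
  have hbridge : k * (L / Nat.nth Nat.Prime (k + m) + 1) ≤ m := by
    set P := Nat.nth Nat.Prime (k + m) with hP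
    have hPm : m ≤ P := by
      have := Nat.add_two_le_nth_prime (k + m)
      omega
    have hmpos : 0 < m := by omega
    have h1 : (L / P) * m ≤ L := by
      calc (L / P) * m ≤ (L / P) * P := Nat.mul_le_mul_left _ hPm
        _ ≤ L := Nat.div_mul_le_self _ _
    have h2 : m * (k * (L / P)) ≤ m * s := by
      calc m * (k * (L / P)) = k * ((L / P) * m) := by ring
        _ ≤ k * L := Nat.mul_le_mul_left _ h1
        _ ≤ s * s := hskL
        _ ≤ m * s := Nat.mul_le_mul_right _ (by omega)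
    have h3 : k * (L / P) ≤ s := Nat.le_of_mul_le_mul_left h2 hmpos
    calc k * (L / P + 1) = k * (L / P) + k := by ring
      _ ≤ m := by omega
  refine ⟨k + m, by omega, bridge k m L hrun hbridge, ?_⟩
  have hk1 : (1 : ℝ) ≤ k := by exact_mod_cast hk
  have : ((k + m : ℕ) : ℝ) = 2 * (k : ℝ) + s := by
    rw [hm]
    push_cast
    ring
  rw [this]
  linarith

/-- The logarithm of `K`, when `K ≤ 2 x` and `x² ≤ C4 k⁴`. -/
lemma bound_log (C4 k x K : ℝ) (hC4 : 0 < C4) (hk : 2 ≤ k) (hx0 : 0 ≤ x)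
    (hxle : x * x ≤ C4 * k ^ 4) (hK1 : 1 ≤ K) (hK : K ≤ 2 * x) :
    Real.log K ≤ (Real.log (2 * C4 + 8) / Real.log 2 + 3) * Real.log k := by
  have hlog2 : 0 < Real.log 2 := Real.log_pos (by norm_num)
  have hk0 : 0 < k := by linarith
  have hlogk : Real.log 2 ≤ Real.log k := Real.log_le_log (by norm_num) hk
  have hlogkpos : 0 < Real.log k := lt_of_lt_of_le hlog2 hlogk
  obtain ⟨t, ht⟩ : ∃ t, t = k ^ 2 := ⟨_, rfl⟩
  have ht0 : 0 < t := by rw [ht]; positivity
  have h4 : k ^ 4 = t * t := by rw [ht]; ring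
  rw [h4] at hxle
  have hxt : x ≤ (C4 + 1) * t := by
    by_contra hcon
    push Not at hcon
    have h1 : 0 ≤ (C4 + 1) * t := by positivity
    have h2 := mul_self_lt_mul_self h1 hcon
    have h3 : 0 < t * t := by positivity
    nlinarith
  have hKle : K ≤ (2 * C4 + 8) * k ^ 2 := by
    rw [← ht]
    nlinarith
  have hKpos : 0 < K := by linarith
  have h1 := Real.log_le_log hKpos hKle
  rw [Real.log_mul (by positivity) (by positivity), Real.log_pow] at h1
  have h3 : 0 ≤ Real.log (2 * C4 + 8) := Real.log_nonneg (by linarith)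
  have h5 : 0 ≤ Real.log (2 * C4 + 8) / Real.log 2 := div_nonneg h3 hlog2.le
  have h2 : Real.log (2 * C4 + 8) ≤ (Real.log (2 * C4 + 8) / Real.log 2) * Real.log k := by
    have h4 : Real.log (2 * C4 + 8) = (Real.log (2 * C4 + 8) / Real.log 2) * Real.log 2 := by
      field_simp
    calc Real.log (2 * C4 + 8) = (Real.log (2 * C4 + 8) / Real.log 2) * Real.log 2 := h4
      _ ≤ _ := by gcongr
  push_cast at h1
  nlinarith

/-- A bound `j(P_k) ≪ k (log k)^A` gives `h(k) ≪ k (log k)^(2A)`. -/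
theorem polylog_transfer (A C : ℝ) (hA : 0 < A) (hC : 0 ≤ C)
    (hbd : ∀ k : ℕ, 2 ≤ k → ∀ L : ℕ, RunOn (firstPrimes k) L →
      (L : ℝ) ≤ C * k * Real.log k ^ A) :
    ∃ C' : ℝ, ∀ k : ℕ, 2 ≤ k → ∀ L : ℕ, HasRun k L →
      (L : ℝ) ≤ C' * k * Real.log k ^ (2 * A) := by
  obtain ⟨C3, hC3⟩ := poly_of_polylog A C hA hC hbd
  set C4 := |C3| + 1 with hC4
  have hC4pos : 0 < C4 := by rw [hC4]; positivity
  set W := Real.log (2 * C4 + 8) / Real.log 2 + 3 with hW
  have hlog2 : 0 < Real.log 2 := Real.log_pos (by norm_num)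
  have hWpos : 0 < W := by
    have : 0 ≤ Real.log (2 * C4 + 8) / Real.log 2 :=
      div_nonneg (Real.log_nonneg (by linarith)) hlog2.le
    rw [hW]
    linarith
  set D := 2 * C * W ^ A with hD
  have hD0 : 0 ≤ D := by rw [hD]; positivity
  have hl2A : 0 < Real.log 2 ^ (2 * A) := Real.rpow_pos_of_pos hlog2 _
  refine ⟨9 / Real.log 2 ^ (2 * A) + D ^ 2, ?_⟩
  intro k hk L hrun
  have hk2 : (2 : ℝ) ≤ k := by exact_mod_cast hk
  have hk0 : (0 : ℝ) < k := by linarith
  have hlogk : Real.log 2 ≤ Real.log k := Real.log_le_log (by norm_num) hk2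
  have hlogkpos : 0 < Real.log k := lt_of_lt_of_le hlog2 hlogk
  have hY : Real.log k ^ (2 * A) = (Real.log k ^ A) ^ 2 := by
    rw [← Real.rpow_natCast, ← Real.rpow_mul hlogkpos.le]
    congr 1
    push_cast
    ring
  have hL0 : (0 : ℝ) ≤ L := by positivity
  obtain ⟨K, hkK, hrun2, hKle⟩ := bridge_step k L (by omega) hrun
  have hbound := hbd K (by omega) L hrun2
  set x := Real.sqrt ((k : ℝ) * L) with hx
  have hx0 : 0 ≤ x := Real.sqrt_nonneg _
  have hxsq : x * x = (k : ℝ) * L := Real.mul_self_sqrt (by positivity)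
  have hkY : 0 ≤ (k : ℝ) * Real.log k ^ (2 * A) := by positivity
  by_cases hcase : x ≤ 3 * (k : ℝ)
  · have h1 : (L : ℝ) ≤ 9 * (k : ℝ) := by
      have h2 : (k : ℝ) * L ≤ (k : ℝ) * (9 * k) := by
        rw [← hxsq]
        nlinarith
      exact le_of_mul_le_mul_left h2 hk0
    have h3 : Real.log 2 ^ (2 * A) ≤ Real.log k ^ (2 * A) :=
      Real.rpow_le_rpow hlog2.le hlogk (by positivity)
    have h5 : 1 ≤ (Real.log k ^ (2 * A)) / (Real.log 2 ^ (2 * A)) := by
      rw [le_div_iff₀ hl2A]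
      linarith
    calc (L : ℝ) ≤ 9 * (k : ℝ) * 1 := by linarith
      _ ≤ 9 * (k : ℝ) * ((Real.log k ^ (2 * A)) / (Real.log 2 ^ (2 * A))) := by gcongr
      _ = (9 / Real.log 2 ^ (2 * A)) * k * Real.log k ^ (2 * A) := by ring
      _ ≤ (9 / Real.log 2 ^ (2 * A) + D ^ 2) * k * Real.log k ^ (2 * A) := by
        have : 0 ≤ D ^ 2 * ((k : ℝ) * Real.log k ^ (2 * A)) := by positivity
        nlinarith
  · push Not at hcase
    have hKle2 : (K : ℝ) ≤ 2 * x := by linarith
    have hk1 : 1 ≤ k := by omega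
    have hLpoly : (L : ℝ) ≤ C4 * (k : ℝ) ^ (3 : ℝ) := by
      refine (hC3 k hk1 L hrun).trans ?_
      have h0 : 0 ≤ (k : ℝ) ^ (3 : ℝ) := by positivity
      gcongr
      rw [hC4]
      have := le_abs_self C3
      linarith
    have hk3 : (k : ℝ) ^ (3 : ℝ) = (k : ℝ) ^ 3 := by
      rw [← Real.rpow_natCast]
      norm_num
    rw [hk3] at hLpoly
    have hxle : x * x ≤ C4 * (k : ℝ) ^ 4 := by
      rw [hxsq]
      have h2 : (k : ℝ) * L ≤ (k : ℝ) * (C4 * (k : ℝ) ^ 3) := by gcongr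
      have h3 : (k : ℝ) * (C4 * (k : ℝ) ^ 3) = C4 * (k : ℝ) ^ 4 := by ring
      linarith
    have hK1 : (1 : ℝ) ≤ K := by
      have : 1 ≤ K := by omega
      exact_mod_cast this
    have hlogKm := bound_log C4 k x K hC4pos hk2 hx0 hxle hK1 hKle2
    rw [← hW] at hlogKm
    have hlogK0 : 0 ≤ Real.log (K : ℝ) := Real.log_nonneg hK1
    have hlogpowle : Real.log (K : ℝ) ^ A ≤ W ^ A * Real.log k ^ A := by
      rw [← Real.mul_rpow hWpos.le hlogkpos.le]
      exact Real.rpow_le_rpow hlogK0 hlogKm hA.le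
    have hmain : (L : ℝ) ≤ D * x * Real.log k ^ A := by
      calc (L : ℝ) ≤ C * (K : ℝ) * Real.log (K : ℝ) ^ A := hbound
        _ ≤ C * (2 * x) * (W ^ A * Real.log k ^ A) := by gcongr
        _ = D * x * Real.log k ^ A := by rw [hD]; ring
    have hfin := square_step D (Real.log k ^ A) k L hD0 (by positivity) hk0 hL0 hmain
    rw [← hY] at hfin
    have h9 : 0 ≤ 9 / Real.log 2 ^ (2 * A) := by positivity
    nlinarith

/-- Polylogarithmic excess over `k`, for the first primes and for all sets of primes. -/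
theorem polylog_iff :
    (∃ A C : ℝ, 0 < A ∧ 0 ≤ C ∧ ∀ k : ℕ, 2 ≤ k → ∀ L : ℕ, RunOn (firstPrimes k) L →
      (L : ℝ) ≤ C * k * Real.log k ^ A) ↔
    (∃ A C : ℝ, 0 < A ∧ 0 ≤ C ∧ ∀ k : ℕ, 2 ≤ k → ∀ L : ℕ, HasRun k L →
      (L : ℝ) ≤ C * k * Real.log k ^ A) := by
  constructor
  · rintro ⟨A, C, hA, hC, h⟩
    obtain ⟨C', hC'⟩ := polylog_transfer A C hA hC h
    refine ⟨2 * A, max C' 0, by positivity, le_max_right _ _, ?_⟩
    intro k hk L hL
    refine (hC' k hk L hL).trans ?_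
    have h0 : 0 ≤ (k : ℝ) := by positivity
    have hk1 : (1 : ℝ) ≤ k := by
      have : 1 ≤ k := by omega
      exact_mod_cast this
    have h1 : 0 ≤ Real.log k ^ (2 * A) := Real.rpow_nonneg (Real.log_nonneg hk1) _
    gcongr
    exact le_max_left _ _
  · rintro ⟨A, C, hA, hC, h⟩
    refine ⟨A, C, hA, hC, fun k hk L hL => h k hk L ⟨firstPrimes k, ?_, ?_, hL⟩⟩
    · exact fun p hp => prime_of_mem_firstPrimes hp
    · rw [card_firstPrimes]

end Vale.Agent.Lib.P013
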